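import Vale.Agent.P022.H472.Lit2
import Vale.Agent.P022.H645.Tr
import Vale.Agent.P022.H220.Exp2
import Vale.Agent.P022.H783.QE
import Vale.Agent.P022.H220.Uni
import Vale.Agent.P022.H761.Fhm

/-!
# P022, stage 3: weight-free formal expansions with diamonds

`c n δ`, `n` the index of the coefficient, `δ` prime to `2N`: for a form `G` of weight `i + 1` on
`Γ₁(N)` one has `c n δ = δ ^ i a_n(⟨δ⟩ G)`; the generators `T_ℓ`, `ℓ S_ℓ` act by formulas which do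
not know the weight.
-/

open scoped ModularForm MatrixGroups Manifold NumberField Real
open UpperHalfPlane Matrix CongruenceSubgroup
open Vale.Agent.P022.H220 Vale.Agent.P022.H645

noncomputable section

namespace Vale.Agent.P022.H353

/-- `F = ∑ a_n q ^ n` -/
def Hs (F : ℍ → ℂ) (a : ℕ → ℂ) : Prop := ∀ τ : ℍ,
  HasSum (fun n : ℕ => a n * Complex.exp (2 * π * Complex.I * n * (τ : ℂ) / (1 : ℕ))) (F τ)

theorem Hs.congr {F G : ℍ → ℂ} {a b : ℕ → ℂ} (h : Hs F a) (hF : ∀ τ, G τ = F τ)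
    (hab : ∀ n, b n = a n) : Hs G b := by
  have h1 : G = F := funext hF
  have h2 : b = a := funext hab
  rw [h1, h2]
  exact h

theorem Hs.add {F G : ℍ → ℂ} {a b : ℕ → ℂ} (h : Hs F a) (h' : Hs G b) :
    Hs (fun τ => F τ + G τ) (fun n => a n + b n) := fun τ =>
  hs_congr' ((h τ).add (h' τ)) fun n => by ring

theorem Hs.sub {F G : ℍ → ℂ} {a b : ℕ → ℂ} (h : Hs F a) (h' : Hs G b) :
    Hs (fun τ => F τ - G τ) (fun n => a n - b n) := fun τ =>
  hs_congr' ((h τ).sub (h' τ)) fun n => by ring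

theorem Hs.smul {F : ℍ → ℂ} {a : ℕ → ℂ} (z : ℂ) (h : Hs F a) :
    Hs (fun τ => z * F τ) (fun n => z * a n) := fun τ =>
  hs_congr' ((h τ).mul_left z) fun n => by ring

theorem Hs.zero : Hs (fun _ => 0) (fun _ => 0) := fun τ =>
  hs_congr' hasSum_zero fun n => by ring

theorem Hs.sum {ι : Type*} (s : Finset ι) {F : ι → ℍ → ℂ} {a : ι → ℕ → ℂ}
    (h : ∀ i ∈ s, Hs (F i) (a i)) : Hs (fun τ => ∑ i ∈ s, F i τ) (fun n => ∑ i ∈ s, a i n) :=
  fun τ => hs_congr' (hasSum_sum fun i hi => h i hi τ) fun n => Finset.sum_mul _ _ _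

theorem Hs.unique {F : ℍ → ℂ} {a b : ℕ → ℂ} (h : Hs F a) (h' : Hs F b) (n : ℕ) : a n = b n :=
  Ex.unique one_pos h h' n

theorem Hs.ex {F : ℍ → ℂ} {a : ℕ → ℂ} {A : AddSubgroup ℂ} (h : Hs F a) (ha : ∀ n, a n ∈ A) :
    Ex A 1 F := ⟨a, ha, h⟩

/-- a function with a `q`-expansion and an expansion in `e(τ/R)` with coefficients in `A` has
`q`-expansion coefficients in `A` -/
theorem Hs.mem {F : ℍ → ℂ} {a : ℕ → ℂ} {A : AddSubgroup ℂ} {R : ℕ} (hR : 0 < R) (h : Hs F a)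
    (hF : Ex A R F) (n : ℕ) : a n ∈ A := by
  classical
  obtain ⟨b, hb, hs⟩ := hF
  have inj : Function.Injective (fun m : ℕ => R * m) := fun a b h =>
    Nat.eq_of_mul_eq_mul_left hR h
  have h1 : ∀ τ : ℍ, HasSum (fun n : ℕ => (if R ∣ n then a (n / R) else 0) *
      Complex.exp (2 * π * Complex.I * n * (τ : ℂ) / R)) (F τ) := by
    intro τ
    refine (inj.hasSum_iff ?_).1 (hs_congr' (h τ) fun n => ?_)
    · intro x hx
      rw [if_neg, zero_mul]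
      rintro ⟨y, rfl⟩
      exact hx ⟨y, rfl⟩
    · simp only [Function.comp_apply, dvd_mul_right, if_true]
      rw [Nat.mul_div_cancel_left _ hR]
      congr 2
      have hR0 : (R : ℂ) ≠ 0 := by exact_mod_cast hR.ne'
      push_cast
      field_simp
  have h2 := Ex.unique hR h1 hs (R * n)
  simp only [dvd_mul_right, if_true, Nat.mul_div_cancel_left _ hR] at h2
  rw [h2]
  exact hb _

theorem cop_mul {N : ℕ} (ℓ : PA N) {δ : ℕ} (h : Nat.Coprime δ (2 * N)) :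
    Nat.Coprime (ℓ.1 * δ) (2 * N) :=
  Nat.Coprime.mul_left ((Nat.Prime.coprime_iff_not_dvd ℓ.2.1).2 ℓ.2.2) h

/-- values in a subgroup are preserved -/
theorem Wd_mem {N : ℕ} {M : Type} [AddCommGroup M] (A : AddSubgroup M)
    (P : FreeAlgebra ℤ (Gen N)) : ∀ c : ℕ → ℕ → M,
    (∀ n δ, Nat.Coprime δ (2 * N) → c n δ ∈ A) →
      ∀ n δ, Nat.Coprime δ (2 * N) → H761.Wd M N P c n δ ∈ A := by
  induction P using FreeAlgebra.induction with
  | grade0 r =>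
    intro c hc n δ hδ
    rw [AlgHom.commutes]
    simp only [Algebra.algebraMap_eq_smul_one, LinearMap.smul_apply, Module.End.one_apply,
      Pi.smul_apply]
    exact A.zsmul_mem (hc n δ hδ) r
  | grade1 s =>
    intro c hc n δ hδ
    rw [H761.Wd, FreeAlgebra.lift_ι_apply]
    cases s with
    | inl ℓ =>
      change c (ℓ.1 * n) δ + (if ℓ.1 ∣ n then c (n / ℓ.1) (ℓ.1 * δ) else 0) ∈ A
      refine A.add_mem (hc _ _ hδ) ?_
      split_ifs
      · exact hc _ _ (cop_mul ℓ hδ)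
      · exact A.zero_mem
    | inr ℓ => exact hc _ _ (cop_mul ℓ hδ)
  | mul x y hx hy =>
    intro c hc
    rw [map_mul]
    exact hx _ (hy c hc)
  | add x y hx hy =>
    intro c hc n δ hδ
    rw [map_add]
    exact A.add_mem (hx c hc n δ hδ) (hy c hc n δ hδ)

theorem cop_N {N δ : ℕ} (h : Nat.Coprime δ (2 * N)) : Nat.Coprime δ N :=
  Nat.Coprime.coprime_mul_left_right h

/-- `f | s` depends only on the lower right entry of `s ∈ Γ₀(N)` modulo `N` -/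
theorem slash_eq_of {N k : ℕ} {s t : SL(2, ℤ)} (hs : s ∈ Gamma0 N) (ht : t ∈ Gamma0 N)
    (h : ((s 1 1 : ℤ) : ZMod N) = ((t 1 1 : ℤ) : ZMod N)) (f : MF N k) :
    (f : ℍ → ℂ) ∣[(k : ℤ)] s = (f : ℍ → ℂ) ∣[(k : ℤ)] t := by
  have hs0 := Gamma0_mem.1 hs
  have ht0 := Gamma0_mem.1 ht
  have hm : s * t⁻¹ ∈ Gamma1 N := by
    have hdet := H783.det_ZMod hs
    have hdet2 := H783.det_ZMod ht
    have key : ∀ i j, (s * t⁻¹) i j = ((s : Matrix (Fin 2) (Fin 2) ℤ) *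
        !![t 1 1, -t 0 1; -t 1 0, t 0 0]) i j := by
      intro i j
      rw [SpecialLinearGroup.SL2_inv_expl t]
      rfl
    rw [Gamma1_mem]
    simp only [key]
    simp only [Matrix.mul_apply, Fin.sum_univ_two, Matrix.of_apply, Matrix.cons_val',
      Matrix.cons_val_zero, Matrix.cons_val_one, Matrix.cons_val_fin_one, Fin.isValue]
    push_cast
    rw [hs0, ht0]
    rw [h] at hdet
    rw [h]
    refine ⟨?_, ?_, ?_⟩
    · linear_combination hdet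
    · linear_combination hdet2
    · ring
  have h2 : (f : ℍ → ℂ) ∣[(k : ℤ)] (s * t⁻¹) = f :=
    f.slash_action_eq' _ (Subgroup.mem_map_of_mem (SpecialLinearGroup.mapGL ℝ) hm)
  have h3 : s = (s * t⁻¹) * t := by group
  conv_lhs => rw [h3, SlashAction.slash_mul, h2]

theorem gd11 {N d : ℕ} (h : Nat.Coprime d N) : gd N d h 1 1 = (d : ℤ) := rfl

/-- `c` represents the form `G` of weight `i + 1` on `Γ₁(N)` -/
def Rep (N i : ℕ) (G : MF N (i + 1)) (c : ℕ → ℕ → ℂ) : Prop :=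
  ∀ (δ : ℕ) (h : Nat.Coprime δ (2 * N)), Hs (fun τ => (δ : ℂ) ^ i *
    ((G : ℍ → ℂ) ∣[((i + 1 : ℕ) : ℤ)] gd N δ (cop_N h)) τ) (fun n => c n δ)

theorem PA_cop2 {N : ℕ} (ℓ : PA N) : Nat.Coprime ℓ.1 (2 * N) :=
  (Nat.Prime.coprime_iff_not_dvd ℓ.2.1).2 ℓ.2.2

section

variable {N : ℕ} [NeZero N] {i : ℕ}

/-- the slashes of `G` by `gd δ`, `gd ℓ` compose to `gd (ℓ δ)` -/
theorem slash_gd_gd (G : MF N (i + 1)) {δ ε : ℕ} (h : Nat.Coprime δ N) (h' : Nat.Coprime ε N)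
    (h'' : Nat.Coprime (ε * δ) N) :
    ((G : ℍ → ℂ) ∣[((i + 1 : ℕ) : ℤ)] gd N δ h) ∣[((i + 1 : ℕ) : ℤ)] gd N ε h' =
      (G : ℍ → ℂ) ∣[((i + 1 : ℕ) : ℤ)] gd N (ε * δ) h'' := by
  rw [← SlashAction.slash_mul]
  refine slash_eq_of ((Gamma0 N).mul_mem (H783.gd_mem h) (H783.gd_mem h')) (H783.gd_mem h'') ?_ G
  have e : (gd N δ h * gd N ε h') 1 1 = gd N δ h 1 0 * gd N ε h' 0 1 +
      gd N δ h 1 1 * gd N ε h' 1 1 := by
    have : ((gd N δ h * gd N ε h' : SL(2, ℤ)) : Matrix (Fin 2) (Fin 2) ℤ) 1 1 =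
        ((gd N δ h : Matrix (Fin 2) (Fin 2) ℤ) * (gd N ε h' : Matrix (Fin 2) (Fin 2) ℤ)) 1 1 := rfl
    rw [this, Matrix.mul_apply, Fin.sum_univ_two]
  have e2 : gd N δ h 1 0 = (N : ℤ) := rfl
  rw [e, e2, gd11, gd11, gd11]
  push_cast
  rw [ZMod.natCast_self]
  ring

theorem Rep.opS {G : MF N (i + 1)} {c : ℕ → ℕ → ℂ} (h : Rep N i G c) (ℓ : PA N) :
    Rep N i (gHk N (Sum.inr ℓ) i G) (H761.fS ℂ ℓ.1 c) := by
  intro δ hδ
  have h1 := h (ℓ.1 * δ) (cop_mul ℓ hδ)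
  refine Hs.congr h1 (fun τ => ?_) (fun n => rfl)
  have e1 : ((gHk N (Sum.inr ℓ) i G : MF N (i + 1)) : ℍ → ℂ) =
      ((ℓ.1 : ℂ) ^ i) • ((G : ℍ → ℂ) ∣[((i + 1 : ℕ) : ℤ)] gd N ℓ.1 ℓ.coprime) := by
    change ((((ℓ.1 : ℂ) ^ i) • (H783.dia (i + 1) ℓ G) : MF N (i + 1)) : ℍ → ℂ) = _
    rw [FunLike.coe_smul, H783.dia_coe]
    rfl
  rw [e1, ModularForm.SL_smul_slash, slash_gd_gd G ℓ.coprime (cop_N hδ)
    (by rw [mul_comm]; exact cop_N (cop_mul ℓ hδ))]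
  simp only [Pi.smul_apply, smul_eq_mul]
  have e2 : gd N (δ * ℓ.1) (by rw [mul_comm]; exact cop_N (cop_mul ℓ hδ)) =
      gd N (ℓ.1 * δ) (cop_N (cop_mul ℓ hδ)) := by
    congr 1
    exact mul_comm _ _
  rw [e2]
  push_cast
  ring

theorem Rep.opT {G : MF N (i + 1)} {c : ℕ → ℕ → ℂ} (h : Rep N i G c) (ℓ : PA N) :
    Rep N i (gHk N (Sum.inl ℓ) i G) (H761.fT ℂ ℓ.1 c) := by
  intro δ hδ
  have hδ0 : (δ : ℂ) ≠ 0 := by
    have : δ ≠ 0 := by
      rintro rfl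
      have h2 := hδ.symm
      rw [Nat.coprime_zero_right] at h2
      omega
    exact_mod_cast this
  have hℓ0 : (ℓ.1 : ℂ) ≠ 0 := by exact_mod_cast ℓ.2.1.ne_zero
  set G' : MF N (i + 1) := H783.slG0 (H783.gd_mem (cop_N hδ)) (i + 1) G with hG'
  have hG'c : (G' : ℍ → ℂ) = (G : ℍ → ℂ) ∣[((i + 1 : ℕ) : ℤ)] gd N δ (cop_N hδ) :=
    H783.slG0_coe _ _ _
  have e1 : ((gHk N (Sum.inl ℓ) i G : MF N (i + 1)) : ℍ → ℂ) ∣[((i + 1 : ℕ) : ℤ)]
      gd N δ (cop_N hδ) = tFun N (i + 1) ℓ G' := by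
    rw [← H783.Tl_coe, hG', H783.Tl_slG0, H783.slG0_coe]
    rfl
  have hF : Hs (G' : ℍ → ℂ) (fun n => ((δ : ℂ) ^ i)⁻¹ * c n δ) := by
    refine Hs.congr (Hs.smul ((δ : ℂ) ^ i)⁻¹ (h δ hδ)) (fun τ => ?_) (fun n => rfl)
    rw [hG'c]
    field_simp
  have hD : Hs (dFun N (i + 1) ℓ G') (fun n => (((ℓ.1 * δ : ℕ) : ℂ) ^ i)⁻¹ * c n (ℓ.1 * δ)) := by
    refine Hs.congr (Hs.smul (((ℓ.1 * δ : ℕ) : ℂ) ^ i)⁻¹ (h _ (cop_mul ℓ hδ)))
      (fun τ => ?_) (fun n => rfl)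
    rw [hG'c, dFun, slash_gd_gd G (cop_N hδ) ℓ.coprime (cop_N (cop_mul ℓ hδ))]
    have : (((ℓ.1 * δ : ℕ) : ℂ) ^ i) ≠ 0 := by
      push_cast
      exact pow_ne_zero _ (mul_ne_zero hℓ0 hδ0)
    field_simp
  have h2 : Hs (tFun N (i + 1) ℓ G') _ := fun τ => Ex.hasSum_tFun ℓ i hF hD τ
  refine Hs.congr (Hs.smul ((δ : ℂ) ^ i) h2) (fun τ => ?_) (fun n => ?_)
  · rw [e1]
  · change c (ℓ.1 * n) δ + (if ℓ.1 ∣ n then c (n / ℓ.1) (ℓ.1 * δ) else 0) = _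
    split_ifs
    · push_cast
      rw [mul_pow]
      field_simp
    · rw [add_zero, add_zero]
      field_simp

theorem Rep.add {G G' : MF N (i + 1)} {c c' : ℕ → ℕ → ℂ} (h : Rep N i G c) (h' : Rep N i G' c') :
    Rep N i (G + G') (c + c') := by
  intro δ hδ
  refine Hs.congr (Hs.add (h δ hδ) (h' δ hδ)) (fun τ => ?_) (fun n => rfl)
  rw [FunLike.coe_add, SlashAction.add_slash, Pi.add_apply]
  ring

theorem Rep.zsmul {G : MF N (i + 1)} {c : ℕ → ℕ → ℂ} (r : ℤ) (h : Rep N i G c) :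
    Rep N i (r • G) (r • c) := by
  intro δ hδ
  refine Hs.congr (Hs.smul (r : ℂ) (h δ hδ)) (fun τ => ?_) (fun n => ?_)
  · have e : ((r • G : MF N (i + 1)) : ℍ → ℂ) = (r : ℂ) • (G : ℍ → ℂ) := by
      funext τ
      simp
    rw [e, ModularForm.SL_smul_slash]
    simp only [Pi.smul_apply, smul_eq_mul]
    ring
  · simp

/-- a word acts on the representing function as on the form -/
theorem Rep.wd (P : FreeAlgebra ℤ (Gen N)) : ∀ {G : MF N (i + 1)} {c : ℕ → ℕ → ℂ}, Rep N i G c →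
    Rep N i (FreeAlgebra.lift ℤ (fun s => gHk N s i) P G) (H761.Wd ℂ N P c) := by
  induction P using FreeAlgebra.induction with
  | grade0 r =>
    intro G c h
    rw [AlgHom.commutes, AlgHom.commutes]
    simp only [Algebra.algebraMap_eq_smul_one, LinearMap.smul_apply, Module.End.one_apply]
    exact h.zsmul r
  | grade1 s =>
    intro G c h
    rw [H761.Wd, FreeAlgebra.lift_ι_apply, FreeAlgebra.lift_ι_apply]
    cases s with
    | inl ℓ => exact h.opT ℓ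
    | inr ℓ => exact h.opS ℓ
  | mul x y hx hy =>
    intro G c h
    rw [map_mul, map_mul]
    exact hx (hy h)
  | add x y hx hy =>
    intro G c h
    rw [map_add, map_add]
    exact (hx h).add (hy h)

/-- a word which kills weight `i + 1` kills the representing function -/
theorem Rep.kill {P : FreeAlgebra ℤ (Gen N)} (hP : FreeAlgebra.lift ℤ (fun s => gHk N s i) P = 0)
    {G : MF N (i + 1)} {c : ℕ → ℕ → ℂ} (h : Rep N i G c) (n δ : ℕ) (hδ : Nat.Coprime δ (2 * N)) :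
    H761.Wd ℂ N P c n δ = 0 := by
  have h1 := h.wd P δ hδ
  rw [hP] at h1
  refine Hs.unique (a := fun n => H761.Wd ℂ N P c n δ) (b := fun _ => 0)
    (Hs.congr h1 (fun τ => ?_) (fun n => rfl)) Hs.zero n
  rw [LinearMap.zero_apply, ModularForm.coe_zero, SlashAction.zero_slash]
  simp

/-- every form is represented -/
theorem exists_rep (G : MF N (i + 1)) : ∃ c, Rep N i G c := by
  classical
  have key : ∀ (δ : ℕ) (h : Nat.Coprime δ (2 * N)), ∃ a : ℕ → ℂ, Hs (fun τ => (δ : ℂ) ^ i *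
      ((G : ℍ → ℂ) ∣[((i + 1 : ℕ) : ℤ)] gd N δ (cop_N h)) τ) a := by
    intro δ h
    set G' : MF N (i + 1) := H783.slG0 (H783.gd_mem (cop_N h)) (i + 1) G with hG'
    have hG'c : (G' : ℍ → ℂ) = (G : ℍ → ℂ) ∣[((i + 1 : ℕ) : ℤ)] gd N δ (cop_N h) :=
      H783.slG0_coe _ _ _
    obtain ⟨a, ha⟩ := H220.hasSum_form G'
    refine ⟨fun n => (δ : ℂ) ^ i * a n, Hs.congr (Hs.smul ((δ : ℂ) ^ i) (F := G') ha)
      (fun τ => ?_) (fun n => rfl)⟩
    rw [hG'c]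
  choose! a ha using key
  exact ⟨fun n δ => a δ n, fun δ h => ha δ h⟩

end

end Vale.Agent.P022.H353
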