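import Vale.Agent.P022.H353.Rvan
import Vale.Agent.P022.H761.Rthf
import Vale.Agent.P022.H545.Main3

/-!
# P022, stage 3: [RVAN] unconditionally
-/

open scoped ModularForm MatrixGroups Manifold NumberField Real
open UpperHalfPlane Matrix CongruenceSubgroup
open Vale.Agent.P022.H220 Vale.Agent.P022.H645 Vale.Agent.P022.H431 Vale.Agent.P022.H352

noncomputable section

namespace Vale.Agent.P022.H353

variable {K : Type} [Field K] [NumberField K]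

theorem cast_finsum (S : Set (𝓞 K)) (g : 𝓞 K → ℤ) :
    ((∑ᶠ α ∈ S, g α : ℤ) : ℂ) = ∑ᶠ α ∈ S, (g α : ℂ) := by
  have h := AddMonoidHom.map_finsum_of_injective (Int.castAddHom ℂ) Int.cast_injective
    (fun α => ∑ᶠ _ : α ∈ S, g α)
  change ((∑ᶠ α ∈ S, g α : ℤ) : ℂ) = ∑ᶠ α, ((∑ᶠ _ : α ∈ S, g α : ℤ) : ℂ) at h
  rw [h]
  refine finsum_congr fun α => ?_
  exact AddMonoidHom.map_finsum_of_injective (Int.castAddHom ℂ) Int.cast_injective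
    (fun _ : α ∈ S => g α)

theorem gR_eq {σ₁ σ₂ : K →+* ℝ} {u : ℝ} (f : 𝓞 K → ℤ) (α : 𝓞 K) :
    H761.gR σ₁ σ₂ u (fun α => (f α : ℂ)) α = ((R.FR σ₁ σ₂ u f α : ℤ) : ℂ) := by
  classical
  rw [H761.gR, R.FR]
  by_cases h : α ∈ H761.FDK σ₁ σ₂ u
  · rw [Set.indicator_of_mem h]
    obtain ⟨h1, h2, h3⟩ := h
    rw [if_pos ⟨h2, h3, h1⟩]
    have h4 : σ₁ (α : K) ≠ 0 := by
      intro h0
      rw [h0, zero_mul] at h1
      exact lt_irrefl _ h1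
    rcases lt_or_gt_of_ne h4 with h5 | h5
    · rw [sign_neg h5, if_neg (not_lt.2 h5.le)]
      simp
    · rw [sign_pos h5, if_pos h5]
      simp
  · rw [Set.indicator_of_notMem h, if_neg]
    · simp
    · rintro ⟨h2, h3, h1⟩
      exact h ⟨h1, h2, h3⟩

variable [Algebra.IsQuadraticExtension ℚ K]

theorem rthf {σ₁ σ₂ : K →+* ℝ} {D₁ e : ℕ} {ε : (𝓞 K)ˣ} (H : H761.RD K σ₁ σ₂ D₁ e ε) {M : ℕ}
    (hM : 0 < M) {𝔟 : Ideal (𝓞 K)} (h𝔟 : 𝔟 ≠ ⊥) {O : Subring ℂ}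
    (hO1 : ∀ x : ℂ, IsIntegral ℤ x → x ∈ O) (hO2 : ∀ n : ℕ, Odd n → (n : ℂ)⁻¹ ∈ O) :
    RTHF σ₁ σ₂ D₁ e M (σ₁ ((ε : 𝓞 K) : K)) (ε : 𝓞 K) 𝔟 O := by
  have e1 : ((0 + 1 : ℕ) : ℤ) = 1 := by norm_num
  refine ⟨fun f => H761.hI σ₁ σ₂ (σ₁ ((ε : 𝓞 K) : K)) 𝔟 (fun α => (f α : ℂ)), fun f h1 h2 => ?_⟩
  have hf : PerO M (fun α => (f α : ℂ)) := fun α β => by
    dsimp only
    rw [h1]
  have hε : ∀ α, (fun α => (f α : ℂ)) (ε * α) = (fun α => (f α : ℂ)) α := fun α => by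
    dsimp only
    rw [h2]
  refine ⟨?_, fun γ hγ => ?_, ?_⟩
  · refine Hs.congr (H.hs h𝔟 hM hf) (fun τ => rfl) (fun n => ?_)
    rw [cast_finsum]
    refine finsum_congr fun α => finsum_congr fun _ => ?_
    rw [gR_eq]
  · rw [e1, H.law h𝔟 hM hf hε γ hγ]
  · obtain ⟨q, hq, B, h⟩ := H.ex h𝔟 hM hf hε (fun α => (isIntegral_algebraMap (x := f α))) hO1 hO2
    refine ⟨B, q, hq, fun γ => ?_⟩
    rw [e1]
    exact h γ

/-- the `2`-part of the character -/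
def chT (D₁ e : ℕ) (d : ℤ) : ℤ :=
  ZMod.χ₈ (d : ZMod 8) ^ e * (if D₁ % 4 = 3 then ZMod.χ₄ (d : ZMod 4) else 1)

theorem chr8_chT (D₁ e : ℕ) : H749.Chr8 (chT D₁ e) := by
  have h8 : ∀ d : ℤ, Odd d → ZMod.χ₈ (d : ZMod 8) = 1 ∨ ZMod.χ₈ (d : ZMod 8) = -1 := by
    intro d hd
    rw [ZMod.χ₈_int_eq_if_mod_eight]
    have : ¬ d % 2 = 0 := by
      rw [← Int.even_iff]
      exact Int.not_even_iff_odd.2 hd
    rw [if_neg this]
    split_ifs <;> simp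
  have h4 : ∀ d : ℤ, Odd d → ZMod.χ₄ (d : ZMod 4) = 1 ∨ ZMod.χ₄ (d : ZMod 4) = -1 := by
    intro d hd
    rw [ZMod.χ₄_int_eq_if_mod_four]
    have : ¬ d % 2 = 0 := by
      rw [← Int.even_iff]
      exact Int.not_even_iff_odd.2 hd
    rw [if_neg this]
    split_ifs <;> simp
  refine ⟨fun d hd => ?_, fun d => ?_, fun d d' _ _ => ?_⟩
  · unfold chT
    have h1 : ZMod.χ₈ (d : ZMod 8) ^ e = 1 ∨ ZMod.χ₈ (d : ZMod 8) ^ e = -1 := by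
      rcases h8 d hd with h | h <;> rw [h]
      · left
        exact one_pow _
      · exact neg_one_pow_eq_or ℤ e
    have h2 : (if D₁ % 4 = 3 then ZMod.χ₄ (d : ZMod 4) else 1) = 1 ∨
        (if D₁ % 4 = 3 then ZMod.χ₄ (d : ZMod 4) else 1) = -1 := by
      split_ifs
      · exact h4 d hd
      · left; rfl
    rcases h1 with h1 | h1 <;> rcases h2 with h2 | h2 <;> rw [h1, h2] <;> norm_num
  · unfold chT
    have h1 : ((d + 8 : ℤ) : ZMod 8) = (d : ZMod 8) := by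
      push_cast
      have : (8 : ZMod 8) = 0 := rfl
      rw [this, add_zero]
    have h2 : ((d + 8 : ℤ) : ZMod 4) = (d : ZMod 4) := by
      push_cast
      have : (8 : ZMod 4) = 0 := rfl
      rw [this, add_zero]
    rw [h1, h2]
  · unfold chT
    push_cast
    rw [map_mul, map_mul, mul_pow]
    split_ifs <;> ring

theorem krP_eq_chT {D₁ e : ℕ} {d : ℤ} (h : (D₁ : ℤ) ∣ d - 1) : chT D₁ e d = krP e D₁ d := by
  have h0 : d % D₁ = 1 % D₁ :=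
    Int.emod_eq_emod_iff_emod_sub_eq_zero.2 (Int.emod_eq_zero_of_dvd h)
  have h1 : jacobiSym d D₁ = 1 := by
    rw [jacobiSym.mod_left' h0, jacobiSym.one_left]
  unfold chT krP
  rw [h1, mul_one]

/-- **[RVAN]** in the literal of `H545.Main3` -/
theorem rvan3 : H545.RVAN3Stmt := by
  intro K _ _ _ D₁ e m σ₁ σ₂ hne hD hD₁ hm _ E _ _ _ ε₀ h1 h2 h3
  refine ⟨chT D₁ e, chr8_chT D₁ e, ?_⟩
  have H : H761.RD K σ₁ σ₂ D₁ e ε₀ := ⟨hne, hD, hD₁, h1, h2⟩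
  have hm0 : 0 < m := hm.pos
  have h := rvan (K := K) hne hD hD₁ hm (σ₁ ((ε₀ : 𝓞 K) : K)) (ε₀ : 𝓞 K) (chT D₁ e)
    (fun d _ hd => krP_eq_chT hd) (chr8_chT D₁ e).pm
    (fun r 𝔟 h𝔟 => rthf H (by positivity) h𝔟 Oz_int Oz_odd) E
  refine H545.RVan.mono h ?_
  rintro f ⟨⟨r, par, hf⟩, hu⟩
  exact ⟨r, par, hf, fun α => hu ε₀ h3 α⟩

end Vale.Agent.P022.H353
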