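import Vale.Agent.P022.H353.Wd
import Vale.Agent.P022.H431.A
import Vale.Agent.P022.H67.Der2
import Vale.Agent.P022.H889.HsX

/-!
# P022, stage 3, row [RLIFT]: formal expansions killed `2`-adically by words of high weight
-/

open scoped ModularForm MatrixGroups Manifold NumberField Real
open UpperHalfPlane Matrix CongruenceSubgroup
open Vale.Agent.P022.H220 Vale.Agent.P022.H645

noncomputable section

namespace Vale.Agent.P022.H353

/-- the closed module: functions on which every word killing all small weights is small -/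
def V (N : ℕ) [NeZero N] (O : Subring ℂ) : Set (ℕ → ℕ → ℂ) :=
  {c | ∀ m : ℤ, ∃ k : ℕ, ∀ P : FreeAlgebra ℤ (Gen N),
    (∀ i < k, FreeAlgebra.lift ℤ (fun s => gHk N s i) P = 0) →
      ∀ n δ, Nat.Coprime δ (2 * N) → H761.Wd ℂ N P c n δ ∈ two O m}

/-- multiplication by a scalar commutes with words -/
theorem Wd_smul {N : ℕ} (z : ℂ) (P : FreeAlgebra ℤ (Gen N)) : ∀ c : ℕ → ℕ → ℂ,
    H761.Wd ℂ N P (fun n δ => z * c n δ) = fun n δ => z * H761.Wd ℂ N P c n δ := by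
  induction P using FreeAlgebra.induction with
  | grade0 r =>
    intro c
    rw [AlgHom.commutes]
    simp only [Algebra.algebraMap_eq_smul_one, LinearMap.smul_apply, Module.End.one_apply]
    funext n δ
    simp only [Pi.smul_apply, zsmul_eq_mul]
    ring
  | grade1 s =>
    intro c
    rw [H761.Wd, FreeAlgebra.lift_ι_apply]
    cases s with
    | inl ℓ =>
      funext n δ
      change z * c (ℓ.1 * n) δ + (if ℓ.1 ∣ n then z * c (n / ℓ.1) (ℓ.1 * δ) else 0) =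
        z * (c (ℓ.1 * n) δ + (if ℓ.1 ∣ n then c (n / ℓ.1) (ℓ.1 * δ) else 0))
      split_ifs <;> ring
    | inr ℓ => rfl
  | mul x y hx hy =>
    intro c
    rw [map_mul, Module.End.mul_apply, Module.End.mul_apply, hy, hx]
  | add x y hx hy =>
    intro c
    rw [map_add, LinearMap.add_apply, LinearMap.add_apply, hx, hy]
    funext n δ
    simp only [Pi.add_apply]
    ring

section

variable {N : ℕ} [NeZero N] {O : Subring ℂ}

theorem V.of_rep {i : ℕ} {G : MF N (i + 1)} {c : ℕ → ℕ → ℂ} (h : Rep N i G c) : c ∈ V N O := by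
  intro m
  refine ⟨i + 1, fun P hP n δ hδ => ?_⟩
  rw [Rep.kill (hP i (Nat.lt_succ_self i)) h n δ hδ]
  exact (two O m).zero_mem

theorem V.closed {c : ℕ → ℕ → ℂ} (h : ∀ m : ℤ, ∃ c' ∈ V N O, ∀ n δ, Nat.Coprime δ (2 * N) →
    c n δ - c' n δ ∈ two O m) : c ∈ V N O := by
  intro m
  obtain ⟨c', hc', hcc⟩ := h m
  obtain ⟨k, hk⟩ := hc' m
  refine ⟨k, fun P hP n δ hδ => ?_⟩
  have h1 := Wd_mem (N := N) (two O m) P (c - c') (fun n δ hδ => hcc n δ hδ) n δ hδ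
  rw [map_sub] at h1
  have h2 := (two O m).add_mem h1 (hk P hP n δ hδ)
  simpa using h2

theorem V.add {c c' : ℕ → ℕ → ℂ} (h : c ∈ V N O) (h' : c' ∈ V N O) :
    (fun n δ => c n δ + c' n δ) ∈ V N O := by
  intro m
  obtain ⟨k, hk⟩ := h m
  obtain ⟨k', hk'⟩ := h' m
  refine ⟨max k k', fun P hP n δ hδ => ?_⟩
  have e : (fun n δ => c n δ + c' n δ) = c + c' := rfl
  rw [e, map_add]
  exact (two O m).add_mem (hk P (fun i hi => hP i (lt_of_lt_of_le hi (le_max_left _ _))) n δ hδ)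
    (hk' P (fun i hi => hP i (lt_of_lt_of_le hi (le_max_right _ _))) n δ hδ)

theorem V.zero : (fun _ _ => 0) ∈ V N O := by
  intro m
  refine ⟨0, fun P hP n δ hδ => ?_⟩
  have e : (fun _ _ => 0 : ℕ → ℕ → ℂ) = 0 := rfl
  rw [e, map_zero]
  exact (two O m).zero_mem

theorem V.smul {c : ℕ → ℕ → ℂ} {z : ℂ} {e : ℤ} (hz : z ∈ two O e) (h : c ∈ V N O) :
    (fun n δ => z * c n δ) ∈ V N O := by
  intro m
  obtain ⟨k, hk⟩ := h (m - e)
  refine ⟨k, fun P hP n δ hδ => ?_⟩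
  rw [Wd_smul]
  have := two_mul_mem z hz _ (hk P hP n δ hδ)
  rwa [show e + (m - e) = m by ring] at this

theorem V.sum {ι : Type*} (s : Finset ι) {c : ι → ℕ → ℕ → ℂ} (h : ∀ i ∈ s, c i ∈ V N O) :
    (fun n δ => ∑ i ∈ s, c i n δ) ∈ V N O := by
  classical
  induction s using Finset.induction_on with
  | empty => simpa using (V.zero : (fun _ _ => 0) ∈ V N O)
  | insert i s hi IH =>
    have := V.add (h i (Finset.mem_insert_self i s)) (IH fun j hj => h j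
      (Finset.mem_insert_of_mem hj))
    simpa only [Finset.sum_insert hi] using this

end

theorem cop_s {N δ : ℕ} (s : ℕ) (h : Nat.Coprime δ (2 * N)) : Nat.Coprime δ (N * 2 ^ s) :=
  Nat.Coprime.mul_right (cop_N h) (Nat.Coprime.pow_right s (Nat.Coprime.coprime_mul_right_right h))

theorem castMF {N k k' : ℕ} (h : k = k') (G : MF N k) : ∃ G' : MF N k', (G' : ℍ → ℂ) = G := by
  subst h
  exact ⟨G, rfl⟩

theorem odd_pow (y : ℤ) (hy : Odd y) (n : ℕ) : ∃ z : ℤ, y ^ 2 ^ n = 1 + 2 ^ (n + 1) * z := by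
  induction n with
  | zero =>
    obtain ⟨z, hz⟩ := hy
    exact ⟨z, by rw [hz]; ring⟩
  | succ n IH =>
    obtain ⟨z, hz⟩ := IH
    refine ⟨z + 2 ^ n * z ^ 2, ?_⟩
    rw [pow_succ 2 n, pow_mul, hz]
    ring

theorem cop_odd {N δ : ℕ} (h : Nat.Coprime δ (2 * N)) : Odd δ :=
  Nat.Coprime.odd_of_right (Nat.Coprime.coprime_mul_right_right h)

theorem int_mem (O : Subring ℂ) (z : ℤ) : (z : ℂ) ∈ two O 0 := ⟨z, intCast_mem O z, by simp⟩

theorem nat_mem (O : Subring ℂ) (z : ℕ) : (z : ℂ) ∈ two O 0 := ⟨z, natCast_mem O z, by simp⟩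

theorem two_pow_mem (O : Subring ℂ) (n : ℕ) : (2 : ℂ) ^ n ∈ two O n := ⟨1, O.one_mem, by simp⟩

theorem mem_of_mul {O : Subring ℂ} {a b c : ℤ} {x y : ℂ} (hx : x ∈ two O a) (hy : y ∈ two O b)
    (h : c ≤ a + b) : x * y ∈ two O c := two_anti O h (two_mul_mem x hx y hy)

theorem dvd_of_gamma0 {M : ℕ} {γ : SL(2, ℤ)} (h : γ ∈ Gamma0 M) : (M : ℤ) ∣ γ.1 1 0 := by
  rw [Gamma0_mem] at h
  exact (ZMod.intCast_zmod_eq_zero_iff_dvd _ M).mp (by simpa using h)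

theorem gamma0_of_dvd {M : ℕ} {γ : SL(2, ℤ)} (h : (M : ℤ) ∣ γ.1 1 0) : γ ∈ Gamma0 M := by
  rw [Gamma0_mem]
  exact (ZMod.intCast_zmod_eq_zero_iff_dvd _ M).mpr h

/-- **[RLIFT], trivial character at `2`** -/
theorem lift0 {O : Subring ℂ} (hO1 : ∀ z : ℂ, IsIntegral ℤ z → z ∈ O) {N : ℕ} [NeZero N]
    (s κ B R : ℕ) (hR : 0 < R) (F : ℍ → ℂ) (hF : ∀ γ ∈ Gs N s, F ∣[((κ + 1 : ℕ) : ℤ)] γ = F)
    (hFe : ∀ γ : SL(2, ℤ), Ex (two O (-(B : ℤ))) R (F ∣[((κ + 1 : ℕ) : ℤ)] γ))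
    (c : ℕ → ℕ → ℂ)
    (hc : ∀ (δ : ℕ) (h : Nat.Coprime δ (2 * N)), Hs (fun τ => (δ : ℂ) ^ κ *
      (F ∣[((κ + 1 : ℕ) : ℤ)] gd (N * 2 ^ s) δ (cop_s s h)) τ) (fun n => c n δ)) :
    c ∈ V N O := by
  refine V.closed fun m => ?_
  have hFd : MDiff F := by
    have := hFe 1
    rw [SlashAction.slash_one] at this
    exact H67.Ex_mdiff hR this
  set n' : ℕ := (m + B).toNat with hn'
  have hn'1 : m ≤ n' + 1 - B := by
    have := Int.self_le_toNat (m + B)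
    omega
  -- the form `H`
  have hH1 : Ex (two O 1) (R * 2 ^ s) (fun τ => H889.H s τ - 1) := by
    have h1 := Ex.up one_pos (S := R * 2 ^ s) (by positivity) (H889.H_one O s)
    rw [one_mul] at h1
    refine Ex.congr (fun τ => ?_) (Ex.smul (c := 2) (B := two O 1) (fun a ha => ⟨a, ha, by simp⟩)
      h1)
    push_cast
    ring
  have hHd : MDiff (H889.H s) := by
    refine H67.Ex_mdiff (R := R * 2 ^ s) (A := two O 0) (by positivity) ?_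
    refine Ex.congr (fun τ => ?_) (Ex.add (Ex.mono (two_anti O (by norm_num)) hH1)
      (Ex.const (c := 1) (by simpa using int_mem O 1)))
    ring
  have hH2 : ∀ γ : SL(2, ℤ), γ ∉ Gamma0 (2 ^ s) →
      Ex (two O 1) (R * 2 ^ s) (H889.H s ∣[((H889.kk s : ℕ) : ℤ)] γ) := by
    intro γ hγ
    have h1 := H889.H_off O (H889.rootStable_of_int hO1) s γ
      (fun h => hγ (gamma0_of_dvd (by exact_mod_cast h)))
    have h2 := Ex.up (by positivity) (S := R) hR h1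
    rw [mul_comm] at h2
    refine Ex.congr (fun τ => ?_) (Ex.smul (c := 2) (B := two O 1) (fun a ha => ⟨a, ha, by simp⟩)
      h2)
    ring
  have hFe' : ∀ γ : SL(2, ℤ), Ex (two O (-(B : ℤ))) (R * 2 ^ s)
      (F ∣[((κ + 1 : ℕ) : ℤ)] γ) := fun γ => Ex.up hR (by positivity) (hFe γ)
  obtain ⟨w, hw, G, hG⟩ : ∃ w : ℕ, w = 2 ^ n' * H889.kk s ∧ ∃ G : MF N (κ + 1 + w),
      ∀ δ ∈ Gamma0 (2 ^ s), Ex (two O (n' + 1 - B)) (R * 2 ^ s)
        (fun τ => ((G : ℍ → ℂ) ∣[((κ + 1 + w : ℕ) : ℤ)] δ) τ -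
          (F ∣[((κ + 1 : ℕ) : ℤ)] δ) τ) := by
    obtain ⟨G, -, -, hG⟩ := tr_dia O s (κ + 1) (H889.kk s) (R * 2 ^ s) F (H889.H s) B n' hFd hHd
      hF hFe' (fun γ hγ => H889.H_inv s γ (by exact_mod_cast dvd_of_gamma0 hγ)) hH1 hH2
    exact ⟨_, rfl, G, hG⟩
  have hk : κ + 1 + w = (κ + w) + 1 := by ring
  obtain ⟨G', hG'⟩ := castMF hk G
  obtain ⟨c', hc'⟩ := exists_rep G'
  refine ⟨c', V.of_rep hc', fun n δ hδ => ?_⟩
  have hδ0 : (δ : ℂ) ≠ 0 := by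
    have : δ ≠ 0 := by
      rintro rfl
      have := cop_odd hδ
      simp at this
    exact_mod_cast this
  set g := gd (N * 2 ^ s) δ (cop_s s hδ) with hg
  have hg1 : g ∈ Gamma0 N := (gd_mem N s δ (cop_s s hδ)).1
  have hg2 : g ∈ Gamma0 (2 ^ s) := (gd_mem N s δ (cop_s s hδ)).2
  have hX : Hs (fun τ => ((G : ℍ → ℂ) ∣[((κ + 1 + w : ℕ) : ℤ)] g) τ)
      (fun n => ((δ : ℂ) ^ (κ + w))⁻¹ * c' n δ) := by
    refine Hs.congr (Hs.smul ((δ : ℂ) ^ (κ + w))⁻¹ (hc' δ hδ)) (fun τ => ?_) (fun n => rfl)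
    have e1 : ((G' : ℍ → ℂ) ∣[((κ + w + 1 : ℕ) : ℤ)] gd N δ (cop_N hδ)) =
        (G' : ℍ → ℂ) ∣[((κ + w + 1 : ℕ) : ℤ)] g :=
      slash_eq_of (H783.gd_mem (cop_N hδ)) hg1 rfl G'
    rw [e1, hG', ← hk]
    field_simp
  have hY : Hs (fun τ => (F ∣[((κ + 1 : ℕ) : ℤ)] g) τ) (fun n => ((δ : ℂ) ^ κ)⁻¹ * c n δ) := by
    refine Hs.congr (Hs.smul ((δ : ℂ) ^ κ)⁻¹ (hc δ hδ)) (fun τ => ?_) (fun n => rfl)
    rw [← hg]
    field_simp
  have h1 := Hs.mem (R := R * 2 ^ s) (by positivity) (Hs.sub hX hY) (hG g hg2) n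
  have h2 := Hs.mem hR hY (hFe g) n
  obtain ⟨z, hz⟩ := odd_pow ((δ : ℤ) ^ H889.kk s) (Odd.pow (by exact_mod_cast cop_odd hδ)) n'
  have hz' : (δ : ℂ) ^ w = 1 + 2 ^ (n' + 1) * (z : ℂ) := by
    rw [hw, mul_comm, pow_mul]
    exact_mod_cast hz
  have h3 : (δ : ℂ) ^ (κ + w) * (((δ : ℂ) ^ (κ + w))⁻¹ * c' n δ - ((δ : ℂ) ^ κ)⁻¹ * c n δ) ∈
      two O m := mem_of_mul (a := 0) (by exact_mod_cast nat_mem O (δ ^ (κ + w))) h1 (by
        rw [zero_add]; exact hn'1)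
  have h4 : (δ : ℂ) ^ κ * (2 ^ (n' + 1) * (z : ℂ)) * (((δ : ℂ) ^ κ)⁻¹ * c n δ) ∈ two O m := by
    refine mem_of_mul (a := (n' + 1 : ℕ)) (b := -B) ?_ h2 ?_
    · refine mem_of_mul (a := 0) (b := (n' + 1 : ℕ)) (by exact_mod_cast nat_mem O (δ ^ κ)) ?_
        (by rw [zero_add])
      exact mem_of_mul (a := (n' + 1 : ℕ)) (b := 0) (two_pow_mem O _) (int_mem O z)
        (by rw [add_zero])
    · push_cast
      linarith
  have h5 : c n δ - c' n δ = -((δ : ℂ) ^ (κ + w) *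
      (((δ : ℂ) ^ (κ + w))⁻¹ * c' n δ - ((δ : ℂ) ^ κ)⁻¹ * c n δ)) -
      (δ : ℂ) ^ κ * (2 ^ (n' + 1) * (z : ℂ)) * (((δ : ℂ) ^ κ)⁻¹ * c n δ) := by
    have e1 : (2 : ℂ) ^ (n' + 1) * z = (δ : ℂ) ^ w - 1 := by rw [hz']; ring
    rw [e1, pow_add]
    have h6 : (δ : ℂ) ^ κ ≠ 0 := pow_ne_zero _ hδ0
    have h7 : (δ : ℂ) ^ w ≠ 0 := pow_ne_zero _ hδ0
    field_simp
    ring
  rw [h5]
  exact (two O m).sub_mem ((two O m).neg_mem h3) h4

end Vale.Agent.P022.H353
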