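import Vale.Agent.P022.H353.LiftOm
import Vale.Agent.P022.H67.Der3

/-!
# P022, stage 3, row [RLIFT]: derivatives, final form
-/

open scoped ModularForm MatrixGroups Manifold NumberField Real
open UpperHalfPlane Matrix CongruenceSubgroup
open Vale.Agent.P022.H220 Vale.Agent.P022.H645 Vale.Agent.P022.H431 Vale.Agent.P022.H67

noncomputable section

namespace Vale.Agent.P022.H353

/-- two matrices of `Γ₀(N 2^s)` with the same lower right entry differ by an element of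
`Γ₁(N) ∩ Γ₀(2^s)` whose lower right entry is `1` modulo `2^s` -/
theorem quot_mem {N s : ℕ} {g h : SL(2, ℤ)} (hg : ((N * 2 ^ s : ℕ) : ℤ) ∣ g.1 1 0)
    (hh : ((N * 2 ^ s : ℕ) : ℤ) ∣ h.1 1 0) (e : g.1 1 1 = h.1 1 1) :
    g * h⁻¹ ∈ Gs N s ∧ ((2 ^ s : ℕ) : ℤ) ∣ (g * h⁻¹).1 1 1 - 1 := by
  obtain ⟨x, hx⟩ := hg
  obtain ⟨y, hy⟩ := hh
  have hdg := H889.det_eq g
  have hdh := H889.det_eq h
  have key : ∀ i j, (g * h⁻¹).1 i j = ((g : Matrix (Fin 2) (Fin 2) ℤ) *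
      !![h.1 1 1, -h.1 0 1; -h.1 1 0, h.1 0 0]) i j := by
    intro i j
    rw [SpecialLinearGroup.SL2_inv_expl h]
    rfl
  have e00 : (g * h⁻¹).1 0 0 = g.1 0 0 * h.1 1 1 - g.1 0 1 * h.1 1 0 := by
    rw [key, Matrix.mul_apply, Fin.sum_univ_two]
    simp only [Matrix.of_apply, Matrix.cons_val', Matrix.cons_val_zero, Matrix.cons_val_one,
      Matrix.cons_val_fin_one, Fin.isValue]
    ring
  have e10 : (g * h⁻¹).1 1 0 = g.1 1 0 * h.1 1 1 - g.1 1 1 * h.1 1 0 := by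
    rw [key, Matrix.mul_apply, Fin.sum_univ_two]
    simp only [Matrix.of_apply, Matrix.cons_val', Matrix.cons_val_zero, Matrix.cons_val_one,
      Matrix.cons_val_fin_one, Fin.isValue]
    ring
  have e11 : (g * h⁻¹).1 1 1 = g.1 1 1 * h.1 0 0 - g.1 1 0 * h.1 0 1 := by
    rw [key, Matrix.mul_apply, Fin.sum_univ_two]
    simp only [Matrix.of_apply, Matrix.cons_val', Matrix.cons_val_zero, Matrix.cons_val_one,
      Matrix.cons_val_fin_one, Fin.isValue]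
    ring
  have d10 : ((N * 2 ^ s : ℕ) : ℤ) ∣ (g * h⁻¹).1 1 0 := by
    refine ⟨x * h.1 1 1 - g.1 1 1 * y, ?_⟩
    rw [e10, hx, hy]
    ring
  have d11 : ((N * 2 ^ s : ℕ) : ℤ) ∣ (g * h⁻¹).1 1 1 - 1 := by
    refine ⟨h.1 0 1 * y - x * h.1 0 1, ?_⟩
    rw [e11, e, hx]
    rw [hy] at hdh
    linear_combination hdh
  have d00 : ((N * 2 ^ s : ℕ) : ℤ) ∣ (g * h⁻¹).1 0 0 - 1 := by
    refine ⟨g.1 0 1 * x - g.1 0 1 * y, ?_⟩
    rw [e00, ← e, hy]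
    rw [hx] at hdg
    linear_combination hdg
  have hN : (N : ℤ) ∣ ((N * 2 ^ s : ℕ) : ℤ) := by
    push_cast
    exact dvd_mul_right _ _
  have h2 : ((2 ^ s : ℕ) : ℤ) ∣ ((N * 2 ^ s : ℕ) : ℤ) := by
    push_cast
    exact dvd_mul_left _ _
  refine ⟨⟨?_, ?_⟩, h2.trans d11⟩
  · change g * h⁻¹ ∈ Gamma1 N
    rw [Gamma1_mem]
    refine ⟨?_, ?_, ?_⟩
    · have := (ZMod.intCast_zmod_eq_zero_iff_dvd _ N).mpr (hN.trans d00)
      push_cast at this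
      exact sub_eq_zero.1 this
    · have := (ZMod.intCast_zmod_eq_zero_iff_dvd _ N).mpr (hN.trans d11)
      push_cast at this
      exact sub_eq_zero.1 this
    · exact (ZMod.intCast_zmod_eq_zero_iff_dvd _ N).mpr (hN.trans d10)
  · exact gamma0_of_dvd (h2.trans d10)

/-- **[RLIFT]** -/
theorem rlift {O : Subring ℂ} (hO1 : ∀ z : ℂ, IsIntegral ℤ z → z ∈ O)
    (hO2 : ∀ n : ℕ, Odd n → (n : ℂ)⁻¹ ∈ O) {N : ℕ} [NeZero N]
    (s κ B R par : ℕ) (hs : 2 ≤ s) (hR : 0 < R) (F : ℍ → ℂ)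
    (hF : ∀ γ ∈ Gs N s, F ∣[((κ + 1 : ℕ) : ℤ)] γ = fun τ => om (γ.1 1 1) ^ par * F τ)
    (hFe : ∀ γ : SL(2, ℤ), Ex (two O (-(B : ℤ))) R (F ∣[((κ + 1 : ℕ) : ℤ)] γ))
    (c : ℕ → ℕ → ℂ)
    (hc : ∀ (δ : ℕ) (h : Nat.Coprime δ (2 * N)), Hs (fun τ => (δ : ℂ) ^ κ *
      (F ∣[((κ + 1 : ℕ) : ℤ)] gd (N * 2 ^ s) δ (cop_s s h)) τ) (fun n => c n δ)) (ν : ℕ) :
    (fun (n δ : ℕ) => ((δ : ℂ) ^ 2 * n) ^ ν * c n δ) ∈ V N O := by
  have hO3 : ∀ z : ℂ, ∀ n : ℕ, 0 < n → z ^ n = 1 → z ∈ O := fun z n hn hz =>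
    hO1 z (IsIntegral.of_pow hn (by rw [hz]; exact isIntegral_one))
  have hFd : MDiff F := by
    have := hFe 1
    rw [SlashAction.slash_one] at this
    exact H67.Ex_mdiff hR this
  have h4s : (4 : ℤ) ∣ ((2 ^ s : ℕ) : ℤ) := by
    obtain ⟨t, rfl⟩ := Nat.exists_eq_add_of_le hs
    exact ⟨2 ^ t, by push_cast; rw [pow_add]; norm_num⟩
  refine V.closed fun m => ?_
  set t : ℕ := max s (m + B + 2).toNat with ht
  have hst : s ≤ t := le_max_left _ _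
  have ht2 : 2 ≤ t := hs.trans hst
  have ht1 : m ≤ -(B : ℤ) + t - 2 := by
    have h1 := Int.self_le_toNat (m + B + 2)
    have h2 : (m + B + 2).toNat ≤ t := le_max_right _ _
    omega
  have hdvd : ((2 ^ s : ℕ) : ℤ) ∣ ((2 ^ t : ℕ) : ℤ) := by
    exact_mod_cast pow_dvd_pow 2 hst
  obtain ⟨B', R', hR', hcu⟩ := itM_cusps hO3 hO2 t B R hR ν
  have hk : κ + 1 + 2 * ν = (κ + 2 * ν) + 1 := by ring
  have hle : ∀ γ ∈ Gs N t, γ ∈ Gs N s := fun γ hγ =>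
    ⟨hγ.1, gamma0_of_dvd (hdvd.trans (dvd_of_gamma0 hγ.2))⟩
  -- the slash by `gd (N 2^t) δ`
  have hg : ∀ (δ : ℕ) (h : Nat.Coprime δ (2 * N)),
      F ∣[((κ + 1 : ℕ) : ℤ)] gd (N * 2 ^ t) δ (cop_s t h) =
        F ∣[((κ + 1 : ℕ) : ℤ)] gd (N * 2 ^ s) δ (cop_s s h) := by
    intro δ h
    set g := gd (N * 2 ^ t) δ (cop_s t h) with hg
    set g' := gd (N * 2 ^ s) δ (cop_s s h) with hg'
    have e1 : g.1 1 0 = ((N * 2 ^ t : ℕ) : ℤ) := rfl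
    have e2 : g'.1 1 0 = ((N * 2 ^ s : ℕ) : ℤ) := rfl
    obtain ⟨h1, h2⟩ := quot_mem (N := N) (s := s) (g := g) (h := g')
      (by rw [e1]; push_cast at hdvd ⊢; exact mul_dvd_mul_left _ hdvd)
      (by rw [e2]) rfl
    have h3 : F ∣[((κ + 1 : ℕ) : ℤ)] (g * g'⁻¹) = F := by
      rw [hF _ h1]
      have h4 : om ((g * g'⁻¹).1 1 1) = 1 := by
        refine om_eq_one ?_
        have := h4s.trans h2
        omega
      funext τ
      rw [h4, one_pow, one_mul]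
    calc F ∣[((κ + 1 : ℕ) : ℤ)] g = F ∣[((κ + 1 : ℕ) : ℤ)] (g * g'⁻¹ * g') := by
          rw [inv_mul_cancel_right]
      _ = (F ∣[((κ + 1 : ℕ) : ℤ)] (g * g'⁻¹)) ∣[((κ + 1 : ℕ) : ℤ)] g' := by
          rw [SlashAction.slash_mul]
      _ = _ := by rw [h3]
  -- coefficients
  have key : ∀ δ : ℕ, ∃ b : ℕ → ℂ, ∀ h : Nat.Coprime δ (2 * N),
      (∀ n, b n - (n : ℂ) ^ ν * (((δ : ℂ) ^ κ)⁻¹ * c n δ) ∈ two O m) ∧
      Hs (itM t (κ + 1) (F ∣[((κ + 1 : ℕ) : ℤ)] gd (N * 2 ^ t) δ (cop_s t h)) ν) b := by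
    intro δ
    by_cases h : Nat.Coprime δ (2 * N)
    · have hδ0 : (δ : ℂ) ≠ 0 := by
        have : δ ≠ 0 := by
          rintro rfl
          have := cop_odd h
          simp at this
        exact_mod_cast this
      have hY : Hs (F ∣[((κ + 1 : ℕ) : ℤ)] gd (N * 2 ^ t) δ (cop_s t h))
          (fun n => ((δ : ℂ) ^ κ)⁻¹ * c n δ) := by
        refine Hs.congr (Hs.smul ((δ : ℂ) ^ κ)⁻¹ (hc δ h)) (fun τ => ?_) (fun n => rfl)
        rw [hg δ h]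
        field_simp
      obtain ⟨b, hb1, hb2⟩ := itM_coeff (hO2 3 (by decide)) hO3 t (κ + 1) ht2 (-(B : ℤ)) _ _
        (fun n => Hs.mem hR hY (hFe _) n) hY ν
      exact ⟨b, fun _ => ⟨fun n => two_anti O ht1 (hb1 n), hb2⟩⟩
    · exact ⟨0, fun h' => absurd h' h⟩
  choose b hb using key
  refine ⟨fun n δ => (δ : ℂ) ^ (κ + 2 * ν) * b δ n, ?_, fun n δ hδ => ?_⟩
  · have hex : ∀ γ : SL(2, ℤ), Ex (two O (-(B' : ℤ))) R'
        (itM t (κ + 1) F ν ∣[((κ + 2 * ν + 1 : ℕ) : ℤ)] γ) := by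
      intro γ
      rw [← hk]
      exact hcu (κ + 1) F hFe γ
    have hlaw : ∀ γ ∈ Gs N t, itM t (κ + 1) F ν ∣[((κ + 2 * ν + 1 : ℕ) : ℤ)] γ =
        fun τ => om (γ.1 1 1) ^ par * itM t (κ + 1) F ν τ := by
      intro γ hγ
      rw [← hk]
      exact itM_law t (κ + 1) hFd γ (dvd_of_gamma0 hγ.2) _ (hF γ (hle γ hγ)) ν
    have hcc : ∀ (δ : ℕ) (h : Nat.Coprime δ (2 * N)), Hs (fun τ => (δ : ℂ) ^ (κ + 2 * ν) *
        (itM t (κ + 1) F ν ∣[((κ + 2 * ν + 1 : ℕ) : ℤ)] gd (N * 2 ^ t) δ (cop_s t h)) τ)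
        (fun n => (δ : ℂ) ^ (κ + 2 * ν) * b δ n) := by
      intro δ h
      refine Hs.congr (Hs.smul _ (hb δ h).2) (fun τ => ?_) (fun n => rfl)
      rw [← hk, itM_slash' t (κ + 1) hFd _ (dvd_of_gamma0 (gd_mem N t δ (cop_s t h)).2) ν]
    have hodd : ∀ γ ∈ Gs N t, Odd (γ.1 1 1) := fun γ hγ =>
      odd_of (H889.det_eq γ) ((h4s.trans hdvd).trans (dvd_of_gamma0 hγ.2))
    rcases Nat.even_or_odd par with hp | hp
    · refine lift0 hO1 t (κ + 2 * ν) B' R' hR' (itM t (κ + 1) F ν) (fun γ hγ => ?_) hex _ hcc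
      rw [hlaw γ hγ]
      funext τ
      rw [om_pow_even (hodd γ hγ) hp, one_mul]
    · refine lift_om hO1 hO2 t (κ + 2 * ν) B' R' ht2 hR' (itM t (κ + 1) F ν)
        (fun γ hγ => ?_) hex _ hcc
      rw [hlaw γ hγ]
      funext τ
      rw [om_pow_odd (hodd γ hγ) hp]
  · have hδ0 : (δ : ℂ) ≠ 0 := by
      have : δ ≠ 0 := by
        rintro rfl
        have := cop_odd hδ
        simp at this
      exact_mod_cast this
    have h1 := (hb δ hδ).1 n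
    have h2 : ((δ : ℂ) ^ 2 * n) ^ ν * c n δ - (δ : ℂ) ^ (κ + 2 * ν) * b δ n =
        (-(δ : ℂ) ^ (κ + 2 * ν)) * (b δ n - (n : ℂ) ^ ν * (((δ : ℂ) ^ κ)⁻¹ * c n δ)) := by
      rw [mul_pow, ← pow_mul, pow_add]
      field_simp
      ring
    change ((δ : ℂ) ^ 2 * n) ^ ν * c n δ - (δ : ℂ) ^ (κ + 2 * ν) * b δ n ∈ two O m
    rw [h2]
    refine mem_of_mul (a := 0) (b := m) ?_ h1 (by rw [zero_add])
    exact (two O 0).neg_mem (by exact_mod_cast nat_mem O (δ ^ (κ + 2 * ν)))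

end Vale.Agent.P022.H353
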