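import Vale.Agent.P022.H353.Lift

/-!
# P022, stage 3, row [RLIFT]: character `χ₋₄` at `2`
-/

open scoped ModularForm MatrixGroups Manifold NumberField Real
open UpperHalfPlane Matrix CongruenceSubgroup
open Vale.Agent.P022.H220 Vale.Agent.P022.H645 Vale.Agent.P022.H431

noncomputable section

namespace Vale.Agent.P022.H353

/-- exponents of the denominators -/
def eo : ℕ → ℕ
  | 0 => 0
  | t + 1 => 3 * eo t + 1

/-- integer polynomials with `y P_t(y²) / 2 ^ e_t → 1` for `y ≡ 1` modulo `4` -/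
def Po : ℕ → Polynomial ℤ
  | 0 => 1
  | t + 1 => Po t * (Polynomial.C (3 * 4 ^ eo t) - Polynomial.X * Po t ^ 2)

/-- the function `y P_t(y²) / 2 ^ e_t` -/
def wo (t : ℕ) (y : ℂ) : ℂ := y * Polynomial.aeval (y ^ 2) (Po t) / 2 ^ eo t

theorem wo_zero (y : ℂ) : wo 0 y = y := by
  simp [wo, Po, eo]

theorem wo_succ (t : ℕ) (y : ℂ) : wo (t + 1) y = wo t y * (3 - wo t y ^ 2) / 2 := by
  have h : (2 : ℂ) ^ eo t ≠ 0 := pow_ne_zero _ two_ne_zero
  have h8 : (2 : ℂ) ^ (3 * eo t + 1) = (2 ^ eo t) ^ 3 * 2 := by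
    rw [pow_succ, mul_comm 3, pow_mul]
  have e : (algebraMap ℤ ℂ) (3 * 4 ^ eo t) = 3 * (2 ^ eo t) ^ 2 := by
    rw [← pow_mul, mul_comm, mul_comm (eo t) 2, pow_mul]
    simp
    ring
  simp only [wo, Po, eo, h8, map_mul (Polynomial.aeval (y ^ 2)), map_sub, map_pow,
    Polynomial.aeval_X, Polynomial.aeval_C, e]
  field_simp

theorem Ex_wo {O : Subring ℂ} {R : ℕ} {y : ℍ → ℂ} (hy : Ex (two O 2) R (fun τ => y τ - 1))
    (t : ℕ) : Ex (two O (t + 2)) R (fun τ => wo t (y τ) - 1) := by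
  induction t with
  | zero => simpa only [wo_zero, Nat.cast_zero, zero_add] using hy
  | succ t IH =>
    have h2 := Ex.mul two_mul_mem IH IH
    have h3 := Ex.mul two_mul_mem h2 IH
    have h4 : Ex (two O ((t + 1 : ℕ) + 2)) R
        (fun τ => (-(3 / 2 : ℂ)) * ((wo t (y τ) - 1) * (wo t (y τ) - 1))) := by
      refine Ex.smul (fun a ha => ?_) h2
      refine mem_of_mul (a := -1) (b := t + 2 + (t + 2)) ⟨-3, ?_, ?_⟩ ha (by push_cast; linarith)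
      · exact O.neg_mem (ofNat_mem O 3)
      · rw [_root_.zpow_neg_one]
        ring
    have h5 : Ex (two O ((t + 1 : ℕ) + 2)) R
        (fun τ => (-(1 / 2 : ℂ)) * ((wo t (y τ) - 1) * (wo t (y τ) - 1) * (wo t (y τ) - 1))) := by
      refine Ex.smul (fun a ha => ?_) h3
      refine mem_of_mul (a := -1) (b := t + 2 + (t + 2) + (t + 2)) ⟨-1, ?_, ?_⟩ ha
        (by push_cast; linarith)
      · exact O.neg_mem O.one_mem
      · rw [_root_.zpow_neg_one]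
        ring
    refine Ex.congr (fun τ => ?_) (Ex.add h4 h5)
    rw [wo_succ]
    ring

theorem Ex_pow' {O : Subring ℂ} {R : ℕ} {a : ℤ} {F : ℍ → ℂ} (hF : Ex (two O a) R F) (j : ℕ) :
    Ex (two O (j * a)) R (fun τ => F τ ^ j) := by
  induction j with
  | zero =>
    refine Ex.congr (fun τ => pow_zero _) (Ex.const ⟨1, O.one_mem, by simp⟩)
  | succ j IH =>
    have h := Ex.mul two_mul_mem IH hF
    refine Ex.congr (fun τ => pow_succ _ _) ?_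
    rw [show ((j + 1 : ℕ) : ℤ) * a = j * a + a by push_cast; ring]
    exact h

/-- **[RLIFT], character `χ₋₄` at `2`** -/
theorem lift_om {O : Subring ℂ} (hO1 : ∀ z : ℂ, IsIntegral ℤ z → z ∈ O)
    (hO2 : ∀ n : ℕ, Odd n → (n : ℂ)⁻¹ ∈ O) {N : ℕ} [NeZero N]
    (s κ B R : ℕ) (hs : 2 ≤ s) (hR : 0 < R) (F : ℍ → ℂ)
    (hF : ∀ γ ∈ Gs N s, F ∣[((κ + 1 : ℕ) : ℤ)] γ = fun τ => om (γ.1 1 1) * F τ)
    (hFe : ∀ γ : SL(2, ℤ), Ex (two O (-(B : ℤ))) R (F ∣[((κ + 1 : ℕ) : ℤ)] γ))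
    (c : ℕ → ℕ → ℂ)
    (hc : ∀ (δ : ℕ) (h : Nat.Coprime δ (2 * N)), Hs (fun τ => (δ : ℂ) ^ κ *
      (F ∣[((κ + 1 : ℕ) : ℤ)] gd (N * 2 ^ s) δ (cop_s s h)) τ) (fun n => c n δ)) :
    c ∈ V N O := by
  have h4s : (4 : ℤ) ∣ ((2 ^ s : ℕ) : ℤ) := by
    obtain ⟨t, rfl⟩ := Nat.exists_eq_add_of_le hs
    exact ⟨2 ^ t, by push_cast; rw [pow_add]; norm_num⟩
  have h4 : ∀ γ ∈ Gamma0 (2 ^ s), (4 : ℤ) ∣ γ.1 1 0 := fun γ hγ =>
    h4s.trans (dvd_of_gamma0 hγ)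
  obtain ⟨R₂, hR₂, B₂, hA⟩ := AA_two hO1 hO2
  -- the expansion of `A`
  have hA1 : Ex (two O 0) 1 AA := by
    refine Ex.congr (fun τ => ?_) (Ex.add (Ex.mono (two_anti O (by norm_num)) (Ex_AA_one O))
      (Ex.const (c := 1) (by simpa using int_mem O 1)))
    ring
  have hFg : ∀ (δ : ℕ) (h : Nat.Coprime δ (2 * N)), Ex (two O (-(B : ℤ))) 1
      (F ∣[((κ + 1 : ℕ) : ℤ)] gd (N * 2 ^ s) δ (cop_s s h)) := by
    intro δ h
    have hδ0 : (δ : ℂ) ≠ 0 := by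
      have : δ ≠ 0 := by
        rintro rfl
        have := cop_odd h
        simp at this
      exact_mod_cast this
    have hY : Hs (fun τ => (F ∣[((κ + 1 : ℕ) : ℤ)] gd (N * 2 ^ s) δ (cop_s s h)) τ)
        (fun n => ((δ : ℂ) ^ κ)⁻¹ * c n δ) := by
      refine Hs.congr (Hs.smul ((δ : ℂ) ^ κ)⁻¹ (hc δ h)) (fun τ => ?_) (fun n => rfl)
      field_simp
    exact hY.ex fun n => Hs.mem hR hY (hFe _) n
  -- the functions `δ A`
  have hy : ∀ δ : ℕ, Odd δ → Ex (two O 2) 1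
      (fun τ => (δ : ℂ) * om (δ : ℤ) * AA τ - 1) := by
    intro δ hδ
    obtain ⟨y, hy⟩ := om_mod (d := (δ : ℤ)) (by exact_mod_cast hδ)
    have h1 : Ex (two O 2) 1 (fun τ => (1 + 4 * (y : ℂ)) * (AA τ - 1)) := by
      refine Ex.smul (fun a ha => ?_) (Ex_AA_one O)
      refine mem_of_mul (a := 0) (b := 2) ?_ ha (by norm_num)
      exact_mod_cast int_mem O (1 + 4 * y)
    have h2 : Ex (two O 2) 1 (fun _ => 4 * (y : ℂ)) :=
      Ex.const ⟨y, intCast_mem O y, by norm_num⟩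
    refine Ex.congr (fun τ => ?_) (Ex.add h1 h2)
    rw [show ((δ : ℂ) * om (δ : ℤ)) = 1 + 4 * (y : ℂ) by exact_mod_cast hy]
    ring
  -- the functions `F A ^ j`
  have hj : ∀ j : ℕ, Odd j → ∃ cj ∈ V N O, ∀ (δ : ℕ) (h : Nat.Coprime δ (2 * N)),
      Hs (fun τ => (δ : ℂ) ^ κ * (F ∣[((κ + 1 : ℕ) : ℤ)] gd (N * 2 ^ s) δ (cop_s s h)) τ *
        ((δ : ℂ) * om (δ : ℤ) * AA τ) ^ j) (fun n => cj n δ) := by
    intro j hj
    have hk : κ + 1 + j = (κ + j) + 1 := by ring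
    have key : ∀ δ : ℕ, ∃ a : ℕ → ℂ, ∀ h : Nat.Coprime δ (2 * N),
        Hs (fun τ => (δ : ℂ) ^ κ * (F ∣[((κ + 1 : ℕ) : ℤ)] gd (N * 2 ^ s) δ (cop_s s h)) τ *
        ((δ : ℂ) * om (δ : ℤ) * AA τ) ^ j) a := by
      intro δ
      by_cases h : Nat.Coprime δ (2 * N)
      · have h1 : Ex ⊤ 1 (fun τ => (δ : ℂ) ^ κ *
            (F ∣[((κ + 1 : ℕ) : ℤ)] gd (N * 2 ^ s) δ (cop_s s h)) τ *
            ((δ : ℂ) * om (δ : ℤ) * AA τ) ^ j) := by
          have h2 : Ex (⊤ : Subring ℂ).toAddSubgroup 1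
              (fun τ => ((δ : ℂ) * om (δ : ℤ) * AA τ) ^ j) := by
            refine Ex.pow ?_ j
            exact Ex.smul (A := two O 0) (fun a _ => Subring.mem_top _) hA1
          have h3 : Ex ⊤ 1 (fun τ => (δ : ℂ) ^ κ *
              (F ∣[((κ + 1 : ℕ) : ℤ)] gd (N * 2 ^ s) δ (cop_s s h)) τ) :=
            Ex.smul (A := two O (-(B : ℤ))) (fun a _ => AddSubgroup.mem_top _) (hFg δ h)
          exact Ex.mul (fun a _ b _ => AddSubgroup.mem_top _) h3 h2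
        obtain ⟨a, -, ha⟩ := h1
        exact ⟨a, fun _ => ha⟩
      · exact ⟨0, fun h' => absurd h' h⟩
    choose a ha using key
    refine ⟨fun n δ => a δ n, ?_, fun δ h => ha δ h⟩
    have hex : ∀ γ : SL(2, ℤ), Ex (two O (-((B + j * B₂ : ℕ) : ℤ))) (R * R₂)
        ((fun τ => F τ * AA τ ^ j) ∣[((κ + j + 1 : ℕ) : ℤ)] γ) := by
      intro γ
      have h1 := Ex.up hR hR₂ (hFe γ)
      have h2 := Ex.up hR₂ hR (Ex_pow' (hA γ) j)
      rw [mul_comm R₂ R] at h2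
      have h3 := Ex.mul two_mul_mem h1 h2
      refine Ex.mono (two_anti O ?_) (Ex.congr (fun τ => ?_) h3)
      · push_cast
        linarith
      · rw [← hk, slash_AA_pow F (κ + 1) j γ τ]
    refine lift0 hO1 s (κ + j) (B + j * B₂) (R * R₂) (by positivity) (fun τ => F τ * AA τ ^ j)
      (fun γ hγ => ?_) hex (fun n δ => a δ n) (fun δ h => ?_)
    · rw [← hk]
      exact slash_AA_inv F (κ + 1) j hj γ (h4 γ hγ.2) (hF γ hγ)
    · refine Hs.congr (ha δ h) (fun τ => ?_) (fun n => rfl)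
      rw [← hk, slash_AA_pow_gamma0 F (κ + 1) j _ (h4 _ (gd_mem N s δ (cop_s s h)).2) τ]
      have e : (gd (N * 2 ^ s) δ (cop_s s h)).1 1 1 = (δ : ℤ) := rfl
      rw [e, pow_add, mul_pow, mul_pow, mul_pow]
      ring
  choose! cj hcV hcj using hj
  refine V.closed fun m => ?_
  set t : ℕ := (m + B).toNat with ht
  have ht1 : m ≤ t + 2 - B := by
    have := Int.self_le_toNat (m + B)
    omega
  refine ⟨fun n δ => ∑ i ∈ Finset.range ((Po t).natDegree + 1),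
    (((Po t).coeff i : ℂ) / 2 ^ eo t) * cj (2 * i + 1) n δ, ?_, fun n δ hδ => ?_⟩
  · refine V.sum _ fun i _ => V.smul (e := -(eo t : ℤ)) ⟨(Po t).coeff i, intCast_mem O _, ?_⟩
      (hcV _ ⟨i, rfl⟩)
    rw [_root_.zpow_neg, zpow_natCast]
    field_simp
  · have h1 : Hs (fun τ => (δ : ℂ) ^ κ *
        (F ∣[((κ + 1 : ℕ) : ℤ)] gd (N * 2 ^ s) δ (cop_s s hδ)) τ *
          wo t ((δ : ℂ) * om (δ : ℤ) * AA τ)) (fun n => ∑ i ∈ Finset.range ((Po t).natDegree + 1),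
        (((Po t).coeff i : ℂ) / 2 ^ eo t) * cj (2 * i + 1) n δ) := by
      refine Hs.congr (Hs.sum _ fun i _ => Hs.smul (((Po t).coeff i : ℂ) / 2 ^ eo t)
        (hcj (2 * i + 1) ⟨i, rfl⟩ δ hδ)) (fun τ => ?_) (fun n => rfl)
      rw [wo, Polynomial.aeval_eq_sum_range, Finset.mul_sum, Finset.sum_div, Finset.mul_sum]
      refine Finset.sum_congr rfl fun i _ => ?_
      rw [zsmul_eq_mul]
      ring
    have h2 := Hs.sub (hc δ hδ) h1
    refine Hs.mem (R := 1) one_pos h2 ?_ n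
    have h3 := Ex.mul two_mul_mem (hFg δ hδ) (Ex_wo (hy δ (cop_odd hδ)) t)
    have h4 : Ex (two O m) 1 (fun τ => (-(δ : ℂ) ^ κ) *
        ((F ∣[((κ + 1 : ℕ) : ℤ)] gd (N * 2 ^ s) δ (cop_s s hδ)) τ *
          (wo t ((δ : ℂ) * om (δ : ℤ) * AA τ) - 1))) := by
      refine Ex.smul (fun a ha => ?_) h3
      refine mem_of_mul (a := 0) (b := -(B : ℤ) + (t + 2)) ?_ ha (by linarith)
      exact (two O 0).neg_mem (by exact_mod_cast nat_mem O (δ ^ κ))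
    refine Ex.congr (fun τ => ?_) h4
    ring

end Vale.Agent.P022.H353
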