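import Vale.Agent.P022.H353.Rvan3
import Vale.Agent.P022.H587.Lim
import Vale.Agent.P022.H576.Sup

/-!
# P022, stage 3: [MAIN3] unconditionally
-/

namespace Vale.Agent.P022.H353

/-- **[MAIN3]** real quadratic fields -/
theorem main3 : R.MAIN3Stmt := H545.main3_of H587.LIM H576.SUP rvan3

end Vale.Agent.P022.H353
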