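import Vale.Agent.P022.H353.LiftDer
import Vale.Agent.P022.H761.Brd
import Vale.Agent.P022.H545.RGen
import Vale.Agent.P022.H352.Law
import Vale.Agent.P022.H547.Val

/-!
# P022, stage 3, row [RVAN]
-/

open scoped ModularForm MatrixGroups Manifold NumberField Real
open UpperHalfPlane Matrix CongruenceSubgroup
open Vale.Agent.P022.H220 Vale.Agent.P022.H645 Vale.Agent.P022.H431 Vale.Agent.P022.H352

noncomputable section

namespace Vale.Agent.P022.H353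

/-- the `2`-integral algebraic numbers -/
def Oz : Subring ℂ where
  carrier := {x | ∃ s : ℕ, Odd s ∧ IsIntegral ℤ ((s : ℂ) * x)}
  mul_mem' := by
    rintro x y ⟨s, hs, hx⟩ ⟨t, ht, hy⟩
    refine ⟨s * t, hs.mul ht, ?_⟩
    have := hx.mul hy
    rwa [show ((s * t : ℕ) : ℂ) * (x * y) = (s : ℂ) * x * ((t : ℂ) * y) by push_cast; ring]
  one_mem' := ⟨1, odd_one, by simpa using isIntegral_one⟩
  add_mem' := by
    rintro x y ⟨s, hs, hx⟩ ⟨t, ht, hy⟩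
    refine ⟨s * t, hs.mul ht, ?_⟩
    have h1 : IsIntegral ℤ ((t : ℂ) * (s * x)) := (isIntegral_algebraMap (x := (t : ℤ))).mul hx
    have h2 : IsIntegral ℤ ((s : ℂ) * (t * y)) := (isIntegral_algebraMap (x := (s : ℤ))).mul hy
    have h3 := h1.add h2
    rwa [show ((s * t : ℕ) : ℂ) * (x + y) = (t : ℂ) * (s * x) + (s : ℂ) * (t * y) by
      push_cast; ring]
  zero_mem' := ⟨1, odd_one, by simpa using isIntegral_zero⟩
  neg_mem' := by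
    rintro x ⟨s, hs, hx⟩
    exact ⟨s, hs, by simpa using hx.neg⟩

theorem Oz_int (z : ℂ) (hz : IsIntegral ℤ z) : z ∈ Oz := ⟨1, odd_one, by simpa using hz⟩

theorem Oz_odd (n : ℕ) (hn : Odd n) : (n : ℂ)⁻¹ ∈ Oz := by
  refine ⟨n, hn, ?_⟩
  have : (n : ℂ) ≠ 0 := by
    have : n ≠ 0 := by rintro rfl; simp at hn
    exact_mod_cast this
  rw [mul_inv_cancel₀ this]
  exact isIntegral_one

/-- an integer in `2 ^ m Oz` is divisible by `2 ^ m` -/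
theorem dvd_of_two {x : ℤ} {m : ℕ} (h : (x : ℂ) ∈ two Oz m) : (2 ^ m : ℤ) ∣ x := by
  obtain ⟨y, ⟨s, hs, hy⟩, hxy⟩ := h
  rw [zpow_natCast] at hxy
  have h1 : IsIntegral ℤ (((s * x : ℤ) : ℚ) / 2 ^ m) := by
    have h2 : IsIntegral ℤ (algebraMap ℚ ℂ (((s * x : ℤ) : ℚ) / 2 ^ m)) := by
      have e : algebraMap ℚ ℂ (((s * x : ℤ) : ℚ) / 2 ^ m) = (s : ℂ) * y := by
        simp only [map_div₀, map_pow, eq_ratCast]
        push_cast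
        rw [hxy]
        field_simp
      rw [e]
      exact hy
    exact (isIntegral_algebraMap_iff (algebraMap ℚ ℂ).injective).1 h2
  obtain ⟨k, hk⟩ := IsIntegrallyClosed.isIntegral_iff.1 h1
  have h3 : (s * x : ℤ) = 2 ^ m * k := by
    have h4 : ((s * x : ℤ) : ℚ) = ((2 ^ m * k : ℤ) : ℚ) := by
      rw [eq_div_iff (by positivity)] at hk
      rw [← hk]
      push_cast
      simp
      ring
    exact_mod_cast h4
  have h5 : IsCoprime (2 ^ m : ℤ) (s : ℤ) := by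
    refine IsCoprime.pow_left ?_
    have : Odd (s : ℤ) := by exact_mod_cast hs
    exact (Int.isCoprime_two_left).2 this
  exact h5.dvd_of_dvd_mul_left ⟨k, h3⟩

/-- additive maps commute with words -/
theorem Wd_map {N : ℕ} {M M' : Type} [AddCommGroup M] [AddCommGroup M'] (g : M →+ M')
    (P : FreeAlgebra ℤ (Gen N)) : ∀ c : ℕ → ℕ → M,
    H761.Wd M' N P (fun n δ => g (c n δ)) = fun n δ => g (H761.Wd M N P c n δ) := by
  induction P using FreeAlgebra.induction with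
  | grade0 r =>
    intro c
    rw [AlgHom.commutes, AlgHom.commutes]
    simp only [Algebra.algebraMap_eq_smul_one, LinearMap.smul_apply, Module.End.one_apply]
    funext n δ
    simp only [Pi.smul_apply, map_zsmul]
  | grade1 s =>
    intro c
    rw [H761.Wd, FreeAlgebra.lift_ι_apply, H761.Wd, FreeAlgebra.lift_ι_apply]
    cases s with
    | inl ℓ =>
      funext n δ
      change g (c (ℓ.1 * n) δ) + (if ℓ.1 ∣ n then g (c (n / ℓ.1) (ℓ.1 * δ)) else 0) =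
        g (c (ℓ.1 * n) δ + (if ℓ.1 ∣ n then c (n / ℓ.1) (ℓ.1 * δ) else 0))
      split_ifs <;> simp
    | inr ℓ => rfl
  | mul x y hx hy =>
    intro c
    rw [map_mul, map_mul, Module.End.mul_apply, Module.End.mul_apply, hy, hx]
  | add x y hx hy =>
    intro c
    rw [map_add, map_add, LinearMap.add_apply, LinearMap.add_apply, hx, hy]
    funext n δ
    simp only [Pi.add_apply, map_add]

section

variable {K : Type} [Field K] [NumberField K]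

/-- [RTHF] the theta series `F f` of weight one attached to the ideal `𝔟`, `f` periodic modulo `M`
and `ε₀`-invariant: coefficients, transformation law, expansions at all cusps -/
def RTHF (σ₁ σ₂ : K →+* ℝ) (D₁ e M : ℕ) (u : ℝ) (ε₀ : 𝓞 K) (𝔟 : Ideal (𝓞 K))
    (O : Subring ℂ) : Prop :=
  ∃ F : (𝓞 K → ℤ) → ℍ → ℂ, ∀ f : 𝓞 K → ℤ,
    (∀ α β, f (α + (M : 𝓞 K) * β) = f α) → (∀ α, f (ε₀ * α) = f α) →
    Hs (F f) (fun n => ((∑ᶠ α ∈ {α : 𝓞 K | α ∈ 𝔟 ∧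
      Ideal.absNorm (Ideal.span {α}) = n * Ideal.absNorm 𝔟}, R.FR σ₁ σ₂ u f α : ℤ) : ℂ)) ∧
    (∀ γ : SL(2, ℤ), ((D₁ * 2 ^ e * M ^ 2 : ℕ) : ℤ) ∣ γ.1 1 0 →
      F f ∣[((0 + 1 : ℕ) : ℤ)] γ = fun τ => (krP e D₁ (γ.1 1 1) : ℂ) *
        F (fun α => f (((γ.1 1 1 : ℤ) : 𝓞 K) * α)) τ) ∧
    ∃ B q : ℕ, 0 < q ∧
      ∀ γ : SL(2, ℤ), Ex (two O (-(B : ℤ))) q (F f ∣[((0 + 1 : ℕ) : ℤ)] γ)

theorem finsum_mul {ι : Type} (S : Set ι) (z : ℤ) (g : ι → ℤ) :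
    ∑ᶠ i ∈ S, z * g i = z * ∑ᶠ i ∈ S, g i := by
  have h := smul_finsum z (fun i => ∑ᶠ _ : i ∈ S, g i)
  rw [smul_eq_mul] at h
  rw [h]
  refine finsum_congr fun i => ?_
  have h2 := smul_finsum z (fun _ : i ∈ S => g i)
  rw [h2]
  rfl

theorem FR_mul {σ₁ σ₂ : K →+* ℝ} {u : ℝ} (z : ℤ) (f : 𝓞 K → ℤ) (α : 𝓞 K) :
    R.FR σ₁ σ₂ u (fun α => z * f α) α = z * R.FR σ₁ σ₂ u f α := by
  unfold R.FR
  split_ifs <;> ring

theorem FR_smul {σ₁ σ₂ : K →+* ℝ} {u : ℝ} {δ : ℕ} (hδ : δ ≠ 0) (f : 𝓞 K → ℤ) (α : 𝓞 K) :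
    R.FR σ₁ σ₂ u f ((δ : 𝓞 K) * α) = R.FR σ₁ σ₂ u (fun α => f ((δ : 𝓞 K) * α)) α := by
  have hδ' : (0 : ℝ) < δ := by positivity
  have e1 : ∀ σ : K →+* ℝ, σ (((δ : 𝓞 K) * α : 𝓞 K) : K) = δ * σ (α : K) := by
    intro σ
    rw [H545.emb_mul]
    simp
  unfold R.FR
  simp only [e1, abs_mul, abs_of_pos hδ']
  have h1 : (δ : ℝ) * |σ₂ (α : K)| ≤ δ * |σ₁ (α : K)| ↔ |σ₂ (α : K)| ≤ |σ₁ (α : K)| :=
    mul_le_mul_iff_of_pos_left hδ'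
  have h2 : (δ : ℝ) * |σ₁ (α : K)| < u ^ 2 * (δ * |σ₂ (α : K)|) ↔
      |σ₁ (α : K)| < u ^ 2 * |σ₂ (α : K)| := by
    rw [show u ^ 2 * (δ * |σ₂ (α : K)|) = δ * (u ^ 2 * |σ₂ (α : K)|) by ring]
    exact mul_lt_mul_iff_of_pos_left hδ'
  have h3 : 0 < (δ : ℝ) * σ₁ (α : K) * (δ * σ₂ (α : K)) ↔ 0 < σ₁ (α : K) * σ₂ (α : K) := by
    rw [show (δ : ℝ) * σ₁ (α : K) * (δ * σ₂ (α : K)) = (δ * δ) * (σ₁ (α : K) * σ₂ (α : K)) by ring]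
    exact mul_pos_iff_of_pos_left (by positivity)
  have h4 : 0 < (δ : ℝ) * σ₁ (α : K) ↔ 0 < σ₁ (α : K) := mul_pos_iff_of_pos_left hδ'
  simp only [h1, h2, h3, h4]

/-- transport of the law to `f ↦ f (d ·)` for homogeneous `f` -/
theorem F_smul {σ₁ σ₂ : K →+* ℝ} {u : ℝ} {ε₀ : 𝓞 K} {M : ℕ} {𝔟 : Ideal (𝓞 K)}
    {F : (𝓞 K → ℤ) → ℍ → ℂ}
    (hF : ∀ f : 𝓞 K → ℤ, (∀ α β, f (α + (M : 𝓞 K) * β) = f α) → (∀ α, f (ε₀ * α) = f α) →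
      Hs (F f) (fun n => ((∑ᶠ α ∈ {α : 𝓞 K | α ∈ 𝔟 ∧
        Ideal.absNorm (Ideal.span {α}) = n * Ideal.absNorm 𝔟}, R.FR σ₁ σ₂ u f α : ℤ) : ℂ)))
    {f : 𝓞 K → ℤ} (h1 : ∀ α β, f (α + (M : 𝓞 K) * β) = f α) (h2 : ∀ α, f (ε₀ * α) = f α)
    {g : 𝓞 K → ℤ} {z : ℤ} (hg : ∀ α, g α = z * f α) (τ : ℍ) : F g τ = (z : ℂ) * F f τ := by
  have e : g = fun α => z * f α := funext hg
  have h3 := hF g (fun α β => by rw [hg, hg, h1]) (fun α => by rw [hg, hg, h2])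
  have h4 := Hs.smul (z : ℂ) (hF f h1 h2)
  have h5 : (fun n : ℕ => ((∑ᶠ α ∈ {α : 𝓞 K | α ∈ 𝔟 ∧
        Ideal.absNorm (Ideal.span {α}) = n * Ideal.absNorm 𝔟}, R.FR σ₁ σ₂ u g α : ℤ) : ℂ)) =
      fun n : ℕ => (z : ℂ) * ((∑ᶠ α ∈ {α : 𝓞 K | α ∈ 𝔟 ∧
        Ideal.absNorm (Ideal.span {α}) = n * Ideal.absNorm 𝔟}, R.FR σ₁ σ₂ u f α : ℤ) : ℂ) := by
    funext n
    rw [e]
    simp only [FR_mul]
    rw [finsum_mul]
    push_cast
    rfl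
  rw [h5] at h3
  exact (h3 τ).unique (h4 τ)

/-- **[RVAN]** -/
theorem rvan [Algebra.IsQuadraticExtension ℚ K] {σ₁ σ₂ : K →+* ℝ} (hne : σ₁ ≠ σ₂)
    {D₁ e m : ℕ} (hD : NumberField.discr K = ((D₁ * 2 ^ e : ℕ) : ℤ)) (hD₁ : Odd D₁) (hm : Odd m)
    [NeZero (D₁ * m ^ 2)] (u : ℝ) (ε₀ : 𝓞 K) (χ : ℤ → ℤ)
    (hχ1 : ∀ d : ℤ, Odd d → (D₁ : ℤ) ∣ d - 1 → χ d = krP e D₁ d)
    (hχ2 : ∀ d : ℤ, Odd d → χ d = 1 ∨ χ d = -1)
    (hT : ∀ (r : ℕ) (𝔟 : Ideal (𝓞 K)), 𝔟 ≠ ⊥ → RTHF σ₁ σ₂ D₁ e (2 ^ r * m) u ε₀ 𝔟 Oz)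
    (E : Type) [NontriviallyNormedField E] [NormedAlgebra ℚ_[2] E] :
    H545.RVan K (D₁ * m ^ 2) (fun ℓ => jacobiSym ((D₁ * 2 ^ e : ℕ) : ℤ) ℓ) E
      {f | ∃ r par : ℕ, X.Eqv m r (D₁ * m ^ 2) (fun d => χ d * R.chi4 d ^ par) f ∧
        ∀ α, f (ε₀ * α) = f α} (H545.GR σ₁ σ₂ u) := by
  rintro f ⟨r, par, ⟨hper, heq⟩, hun⟩ κ 𝔟 h𝔟 ε hε
  obtain ⟨F, hF⟩ := hT r 𝔟 h𝔟
  set N : ℕ := D₁ * m ^ 2 with hN
  set s : ℕ := e + 2 * r + 2 with hs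
  have hNodd : Odd N := hD₁.mul (hm.pow)
  have hper' : ∀ α β, f (α + ((2 ^ r * m : ℕ) : 𝓞 K) * β) = f α := hper
  have hF1 := fun f h1 h2 => (hF f h1 h2).1
  obtain ⟨-, hlaw, B, q, hq, hex⟩ := hF f hper' hun
  have hlev : (D₁ * 2 ^ e * (2 ^ r * m) ^ 2 : ℕ) = N * 2 ^ (e + 2 * r) := by
    rw [hN, pow_add, show 2 * r = r * 2 by ring, pow_mul]
    ring
  -- homogeneity
  have hhom : ∀ d : ℤ, Odd d → (N : ℤ) ∣ d - 1 → ∀ τ,
      F (fun α => f ((d : 𝓞 K) * α)) τ = ((χ d * R.chi4 d ^ par : ℤ) : ℂ) * F f τ := by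
    intro d hd hd1 τ
    exact F_smul hF1 hper' hun (fun α => heq d hd hd1 α) τ
  have hkr : ∀ d : ℤ, Odd d → (N : ℤ) ∣ d - 1 → krP e D₁ d * χ d = 1 := by
    intro d hd hd1
    have h0 : (D₁ : ℤ) ∣ (N : ℤ) := by
      rw [hN]
      push_cast
      exact dvd_mul_right _ _
    have h1 : (D₁ : ℤ) ∣ d - 1 := h0.trans hd1
    rw [← hχ1 d hd h1]
    rcases hχ2 d hd with h | h <;> rw [h] <;> norm_num
  have hom : ∀ d : ℤ, om d = ((R.chi4 d : ℤ) : ℂ) := fun d => rfl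
  -- invariance
  have hinv : ∀ γ ∈ Gs N s, F f ∣[((0 + 1 : ℕ) : ℤ)] γ =
      fun τ => om (γ.1 1 1) ^ par * F f τ := by
    intro γ hγ
    have h2s : ((2 ^ s : ℕ) : ℤ) ∣ γ.1 1 0 := dvd_of_gamma0 hγ.2
    have h1 := (Gamma1_mem N γ).1 hγ.1
    have hNd : (N : ℤ) ∣ γ.1 1 0 := (ZMod.intCast_zmod_eq_zero_iff_dvd _ N).1 h1.2.2
    have hNd1 : (N : ℤ) ∣ γ.1 1 1 - 1 := by
      rw [← ZMod.intCast_zmod_eq_zero_iff_dvd]
      push_cast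
      rw [h1.2.1, sub_self]
    have h2d : (2 : ℤ) ∣ γ.1 1 0 := by
      refine dvd_trans ?_ h2s
      push_cast
      exact dvd_pow_self 2 (by omega)
    have hodd : Odd (γ.1 1 1) := by
      have hdet := H889.det_eq γ
      rw [← Int.not_even_iff_odd]
      rintro h
      obtain ⟨x, hx⟩ := h2d
      obtain ⟨y, hy⟩ := h.two_dvd
      have h7 : 2 * (γ.1 0 0 * y - γ.1 0 1 * x) = 1 := by
        rw [hx, hy] at hdet
        linear_combination hdet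
      omega
    have hdvd : ((D₁ * 2 ^ e * (2 ^ r * m) ^ 2 : ℕ) : ℤ) ∣ γ.1 1 0 := by
      rw [hlev]
      push_cast
      refine IsCoprime.mul_dvd ?_ hNd ?_
      · refine IsCoprime.pow_right ?_
        have : Odd (N : ℤ) := by exact_mod_cast hNodd
        exact (Int.isCoprime_two_right).2 this
      · refine dvd_trans ?_ h2s
        push_cast
        exact pow_dvd_pow 2 (by omega)
    rw [hlaw γ hdvd]
    funext τ
    rw [hhom _ hodd hNd1 τ, hom]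
    have h3 : ((krP e D₁ (γ.1 1 1) * χ (γ.1 1 1) : ℤ) : ℂ) = 1 := by
      rw [hkr _ hodd hNd1]
      simp
    push_cast at h3 ⊢
    linear_combination ((R.chi4 (γ.1 1 1) : ℂ) ^ par * F f τ) * h3
  -- the coefficient functions
  set c : ℕ → ℕ → ℂ := fun n δ => ((krP e D₁ (δ : ℤ) * ∑ᶠ α ∈ {α : 𝓞 K | α ∈ 𝔟 ∧
      Ideal.absNorm (Ideal.span {α}) = n * Ideal.absNorm 𝔟},
        R.FR σ₁ σ₂ u (fun α => f ((δ : 𝓞 K) * α)) α : ℤ) : ℂ) with hc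
  have hcc : ∀ (δ : ℕ) (h : Nat.Coprime δ (2 * N)), Hs (fun τ => (δ : ℂ) ^ 0 *
      (F f ∣[((0 + 1 : ℕ) : ℤ)] gd (N * 2 ^ s) δ (cop_s s h)) τ) (fun n => c n δ) := by
    intro δ h
    have e10 : (gd (N * 2 ^ s) δ (cop_s s h)).1 1 0 = ((N * 2 ^ s : ℕ) : ℤ) := rfl
    have e11 : (gd (N * 2 ^ s) δ (cop_s s h)).1 1 1 = (δ : ℤ) := rfl
    have hdvd : ((D₁ * 2 ^ e * (2 ^ r * m) ^ 2 : ℕ) : ℤ) ∣
        (gd (N * 2 ^ s) δ (cop_s s h)).1 1 0 := by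
      rw [e10, hlev, hs, pow_add 2 (e + 2 * r) 2]
      exact ⟨4, by push_cast; ring⟩
    have h1 := hF1 (fun α => f ((δ : 𝓞 K) * α))
      (fun α β => by
        have := hper' ((δ : 𝓞 K) * α) ((δ : 𝓞 K) * β)
        rw [← this]
        congr 1
        ring)
      (fun α => by
        have := hun ((δ : 𝓞 K) * α)
        rw [← this]
        congr 1
        ring)
    refine Hs.congr (Hs.smul (krP e D₁ (δ : ℤ) : ℂ) h1) (fun τ => ?_) (fun n => ?_)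
    · rw [hlaw _ hdvd, e11, pow_zero, one_mul]
      simp
    · rw [hc]
      push_cast
      rfl
  have hV := rlift Oz_int Oz_odd s 0 B q par (by omega) hq (F f) hinv hex c hcc κ
  -- the coefficient system of helper761
  set ω : ℕ → ℤ := fun δ => krP e D₁ (δ : ℤ) with hω
  have hV2 : (fun n δ => ((H761.bT ω 𝔟 (H545.GR σ₁ σ₂ u f κ) n δ : ℤ) : ℂ)) ∈ V N Oz := by
    refine V.closed fun m' => ⟨_, V.smul (e := 0) (nat_mem Oz (Ideal.absNorm 𝔟 ^ κ)) hV,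
      fun n δ hδ => ?_⟩
    have hδ0 : δ ≠ 0 := by
      rintro rfl
      have := cop_odd hδ
      simp at this
    have e1 : (H761.bT ω 𝔟 (H545.GR σ₁ σ₂ u f κ) n δ : ℤ) =
        krP e D₁ (δ : ℤ) * (((δ ^ 2 * (n * Ideal.absNorm 𝔟) : ℕ) : ℤ) ^ κ *
          ∑ᶠ α ∈ {α : 𝓞 K | α ∈ 𝔟 ∧ Ideal.absNorm (Ideal.span {α}) = n * Ideal.absNorm 𝔟},
            R.FR σ₁ σ₂ u (fun α => f ((δ : 𝓞 K) * α)) α) := by
      rw [H761.bT, smul_eq_mul]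
      congr 1
      rw [← finsum_mul]
      refine finsum_mem_congr rfl fun α hα => ?_
      have hα2 : Ideal.absNorm (Ideal.span {α}) = n * Ideal.absNorm 𝔟 := hα.2
      have e2 : Ideal.absNorm (Ideal.span {((δ : 𝓞 K) * α)}) =
          δ ^ 2 * (n * Ideal.absNorm 𝔟) := by
        rw [← Ideal.span_singleton_mul_span_singleton, map_mul, hα2]
        congr 1
        have h2 : Module.finrank ℤ (𝓞 K) = 2 := by
          rw [NumberField.RingOfIntegers.rank, Algebra.IsQuadraticExtension.finrank_eq_two]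
        rw [Ideal.absNorm_span_singleton]
        have := Algebra.norm_algebraMap (R := ℤ) (S := 𝓞 K) (δ : ℤ)
        rw [h2] at this
        have e3 : (algebraMap ℤ (𝓞 K)) (δ : ℤ) = ((δ : ℕ) : 𝓞 K) := by simp
        rw [e3] at this
        rw [this]
        simp [Int.natAbs_pow]
      rw [H545.GR, FR_smul hδ0, e2]
      ring
    rw [e1, hc]
    have h0 : (((krP e D₁ (δ : ℤ) * (((δ ^ 2 * (n * Ideal.absNorm 𝔟) : ℕ) : ℤ) ^ κ *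
        ∑ᶠ α ∈ {α : 𝓞 K | α ∈ 𝔟 ∧ Ideal.absNorm (Ideal.span {α}) = n * Ideal.absNorm 𝔟},
          R.FR σ₁ σ₂ u (fun α => f ((δ : 𝓞 K) * α)) α) : ℤ)) : ℂ) -
        ((Ideal.absNorm 𝔟 ^ κ : ℕ) : ℂ) * ((((δ : ℂ) ^ 2 * n) ^ κ) *
        ((krP e D₁ (δ : ℤ) * ∑ᶠ α ∈ {α : 𝓞 K | α ∈ 𝔟 ∧
          Ideal.absNorm (Ideal.span {α}) = n * Ideal.absNorm 𝔟},
            R.FR σ₁ σ₂ u (fun α => f ((δ : 𝓞 K) * α)) α : ℤ) : ℂ)) = 0 := by
      push_cast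
      ring
    change _ - ((Ideal.absNorm 𝔟 ^ κ : ℕ) : ℂ) * ((((δ : ℂ) ^ 2 * n) ^ κ) * _) ∈ two Oz m'
    rw [h0]
    exact (two Oz m').zero_mem
  -- the data
  have hdat : H761.Dat N (fun ℓ => jacobiSym ((D₁ * 2 ^ e : ℕ) : ℤ) ℓ) ω
      (H761.FDK σ₁ σ₂ u) (H545.GR σ₁ σ₂ u f κ) := by
    refine H761.dat_real hne u _ (fun α hα => ?_) (fun ℓ hℓ => ?_) (fun ℓ => ?_) (fun ℓ δ => ?_)
    · by_contra h
      obtain ⟨h1, h2, h3⟩ := H545.GR_cond h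
      exact hα ⟨h3, h1, h2⟩
    · rw [hD] at hℓ
      have h1 : ℓ.1 ∣ D₁ * 2 ^ e := by exact_mod_cast hℓ
      rcases (Nat.Prime.dvd_mul ℓ.2.1).1 h1 with h2 | h2
      · exact ℓ.2.2 ((h2.mul_right _).mul_left 2)
      · exact ℓ.2.2 (((ℓ.2.1.dvd_of_dvd_pow h2)).mul_right _)
    · rw [hD]
    · have hodd : Odd ℓ.1 := by
        rcases ℓ.2.1.eq_two_or_odd' with h | h
        · exact absurd (by rw [h]; exact dvd_mul_right _ _) ℓ.2.2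
        · exact h
      have h1 := jac_eq_krP (v := e) hD₁ hodd
      rw [hω]
      dsimp only
      rw [mul_comm D₁ (2 ^ e), h1]
      push_cast
      rw [krP_mul]
  have hω1 : ω 1 = 1 := by
    rw [hω]
    exact_mod_cast krP_one e hD₁
  -- conclusion
  obtain ⟨m', hm'⟩ := exists_pow_lt_of_lt_one hε (show (2 : ℝ)⁻¹ < 1 by norm_num)
  obtain ⟨k, hk⟩ := hV2 m'
  refine ⟨k, fun P hP => ?_⟩
  have h1 := hk P hP 1 1 (Nat.coprime_one_left _)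
  have h2 := Wd_map (Int.castAddHom ℂ) P (H761.bT ω 𝔟 (H545.GR σ₁ σ₂ u f κ))
  have h3 := congrFun (congrFun h2 1) 1
  change H761.Wd ℂ N P (fun n δ => ((H761.bT ω 𝔟 (H545.GR σ₁ σ₂ u f κ) n δ : ℤ) : ℂ)) 1 1 =
    ((H761.Wd ℤ N P (H761.bT ω 𝔟 (H545.GR σ₁ σ₂ u f κ)) 1 1 : ℤ) : ℂ) at h3
  rw [h3, ← H761.pair_eq hdat hω1 P h𝔟] at h1
  obtain ⟨y, hy⟩ := dvd_of_two h1
  rw [hy]
  push_cast
  rw [norm_mul, norm_pow, H547.norm_two]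
  have h4 : ‖(y : E)‖ ≤ 1 := H547.norm_int_le y
  calc (2 : ℝ)⁻¹ ^ m' * ‖(y : E)‖ ≤ (2 : ℝ)⁻¹ ^ m' * 1 :=
        mul_le_mul_of_nonneg_left h4 (by positivity)
    _ < ε := by rw [mul_one]; exact hm'

end

end Vale.Agent.P022.H353
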